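import Vale.Agent.P032X.H820.K.Md

/-!
# P032: the clauses of the model of germs, by code
-/

namespace Vale.Agent.P032.H820.K

/-- some colour in every cell -/
def c0 (K NP NW TB : ℕ) (x j k : ℕ) : List ℕ := cd (lb x NP && lb j (Nat.mul 6 K) && lb k 4) (mp (fun q => ps (En 0 x j k q)) 6 [])

def c1 (K NP NW TB : ℕ) (x j k q : ℕ) : List ℕ :=
  cd (lb x NP && lb j (Nat.mul 6 K) && lb k 4 && lb q 6) [ng (En 0 x j k q), ps (En 4 x 0 0 q)]

def c2 (K NP NW TB : ℕ) (x q : ℕ) : List ℕ :=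
  cd (lb x NP && lb q 6) (ng (En 4 x 0 0 q) :: mp (fun i => ps (En 0 x (Nat.mod i (Nat.mul 6 K)) (Nat.div i (Nat.mul 6 K)) q)) (Nat.mul 24 K) [])

def c3 (K NP NW TB : ℕ) (x q : ℕ) : List ℕ :=
  cd (lb x NP && lb q 6) (ng (En 6 x 0 0 0) :: ng (En 4 x 0 0 q) ::
    mp (fun r => bif Nat.beq r q then ng (En 6 x 0 0 0) else ps (En 4 x 0 0 r)) 6 [])

def c4 (K NP NW TB : ℕ) (x j k s q : ℕ) : List ℕ :=
  cd (lb x NP && lb j (Nat.mul 6 K) && lb k 4 && lb s (Nat.mul 6 K) && lb q 6 && hcell K k j s)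
    [ng (En 0 x j k q), ps (En 2 x s 0 q)]

def c5 (K NP NW TB : ℕ) (x : ℕ) : List ℕ := cd (lb x NP) (mp (fun q => ng (En 4 x 0 0 q)) 6 [])

def c6 (K NP NW TB : ℕ) (x q : ℕ) : List ℕ :=
  cd (lb x NP && lb q 6) (ng (En 4 x 0 0 q) :: ng (En 6 x 0 0 0) ::
    mp (fun s => ps (En 7 x s 0 q)) (Nat.mul 6 K) (mp (fun s => ps (En 8 x s 0 q)) (Nat.mul 6 K) []))

def c7 (K NP NW TB : ℕ) (x j k s q : ℕ) : List ℕ :=
  cd (lb x NP && lb j (Nat.mul 6 K) && lb k 4 && lb s (Nat.mul 6 K) && lb q 6 && ecell K k j s)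
    [ng (En 7 x s 0 q), ng (En 0 x j k q)]

def c8 (K NP NW TB : ℕ) (x j k s q : ℕ) : List ℕ :=
  cd (lb x NP && lb j (Nat.mul 6 K) && lb k 4 && lb s (Nat.mul 6 K) && lb q 6 && fcell K k j s)
    [ng (En 8 x s 0 q), ng (En 0 x j k q)]

def c9 (K NP NW TB : ℕ) (x q : ℕ) : List ℕ := cd (lb x NP && lb q 6) [ng (En 4 x 0 0 q), ps (En 5 x 0 0 q)]

def c10 (K NP NW TB : ℕ) (x j k q : ℕ) : List ℕ :=
  cd (lb x NP && lb j (Nat.mul 6 K) && lb k 4 && lb q 6) [ng (En 1 x j k q), ps (En 5 x 0 0 q)]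

def c11 (K NP NW TB : ℕ) (x j k q : ℕ) : List ℕ :=
  cd (lb x NP && lb j (Nat.mul 6 K) && lb k 4 && lb q 6) [ng (En 0 x j k q), ps (En 1 x j k q)]

def c12 (K NP NW TB : ℕ) (x q : ℕ) : List ℕ :=
  cd (lb x NP && lb q 6) (ng (En 5 x 0 0 q) :: mp (fun i => ps (En 1 x (Nat.mod i (Nat.mul 6 K)) (Nat.div i (Nat.mul 6 K)) q)) (Nat.mul 24 K) [])

def c13 (K NP NW TB : ℕ) (x j k s q : ℕ) : List ℕ :=
  cd (lb x NP && lb j (Nat.mul 6 K) && lb k 4 && lb s (Nat.mul 6 K) && lb q 6 && hcell K k j s)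
    [ng (En 1 x j k q), ps (En 3 x s 0 q)]

def c14 (K NP NW TB : ℕ) (x t q : ℕ) : List ℕ :=
  cd (lb x NP && lb t (Nat.mul 6 K) && lb q 6 && lb (nbf K TB x t) NP)
    [ng (En 4 x 0 0 q), ng (En 5 (nbf K TB x t) 0 0 q), ps (En 6 x 0 0 0)]

def c15 (K NP NW TB : ℕ) (x t q : ℕ) : List ℕ :=
  cd (lb x NP && lb t (Nat.mul 6 K) && lb q 6 && lb (nbf K TB x t) NP)
    [ng (En 4 x 0 0 q), ng (En 4 (nbf K TB x t) 0 0 q), ps (En 6 x 0 0 0)]

/-- the four side atoms (germs) -/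
def lkT (K x s q i : ℕ) : ℕ :=
  bif Nat.beq i 0 then En 2 x s 0 q else bif Nat.beq i 1 then En 2 x (ad K s (Nat.mul 3 K)) 0 q else
  bif Nat.beq i 2 then En 0 x s 2 q else En 0 x (ad K s (Nat.mul 3 K)) 2 q

/-- the four side atoms (open sets) -/
def lkP (K x s q i : ℕ) : ℕ :=
  bif Nat.beq i 0 then En 3 x s 0 q else bif Nat.beq i 1 then En 3 x (ad K s (Nat.mul 3 K)) 0 q else
  bif Nat.beq i 2 then En 1 x s 2 q else En 1 x (ad K s (Nat.mul 3 K)) 2 q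

def c16 (K NP NW TB : ℕ) (x s q i i' e : ℕ) : List ℕ :=
  cd (lb x NP && lb s (Nat.mul 6 K) && lb q 6 && lb (nbf K TB x s) NP && lb i 4 && lb i' 4 &&
      xor (Nat.beq i 0) (Nat.beq i' 1))
    [ng (lkT K x s q i), ng (bif Nat.beq e 0 then lkP K (nbf K TB x s) s q i' else lkT K (nbf K TB x s) s q i')]

def c17 (K NP NW TB : ℕ) (x t sd q : ℕ) : List ℕ :=
  cd (lb x NW && lb t (Nat.mul 6 K) && lb sd 2 && lb q 6)
    [ng (En 9 x t (Nat.mul 2 sd) q), ng (En 9 x t (Nat.succ (Nat.mul 2 sd)) q), ng (En 5 x 0 0 q)]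

def c18 (K NP NW TB : ℕ) (x t b k j q : ℕ) : List ℕ :=
  cd (lb x NW && lb t (Nat.mul 6 K) && lb b 4 && lb k 4 && lb j (Nat.mul 6 K) && lb q 6 && wcell K (Nat.div b 2) (Nat.mod b 2) k j t)
    [ng (En 9 x t b q), ng (En 1 x j k q)]

def c19 (K NP NW TB : ℕ) (x t sd io io' q : ℕ) : List ℕ :=
  cd (lb x NW && lb t (Nat.mul 6 K) && lb sd 2 && lb io 2 && lb io' 2 && lb q 6)
    [ng (En 9 x t (Nat.add (Nat.mul 2 sd) io) q), ng (En 9 x (ad K t K) (Nat.add (Nat.mul 2 sd) io') q)]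

def c20 (K NP NW TB : ℕ) (x t b q : ℕ) : List ℕ :=
  cd (lb x NW && lb t (Nat.mul 6 K) && lb b 4 && lb q 6 && lb (nbf K TB x t) NP)
    [ng (En 9 x t b q), ps (En 0 (nbf K TB x t) (gt K (Nat.div b 2) t) (gk (Nat.div b 2) (Nat.mod b 2)) q)]

def c21 (K NP NW TB : ℕ) (x t sd p q : ℕ) : List ℕ :=
  cd (lb x NW && lb t (Nat.mul 6 K) && lb sd 2 && lb p 6 && lb q 6 && !(Nat.beq p q))
    [ng (En 9 x t (Nat.mul 2 sd) p), ng (En 9 x t (Nat.succ (Nat.mul 2 sd)) q), ng (En 5 x 0 0 p), ps (En 5 x 0 0 q)]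

def c22 (K NP NW TB : ℕ) (x t sd p q : ℕ) : List ℕ :=
  cd (lb x NW && lb t (Nat.mul 6 K) && lb sd 2 && lb p 6 && lb q 6 && !(Nat.beq p q) && lb (nbf K TB x t) NP &&
      lb (nbf K TB (nbf K TB x t) t) NP)
    [ng (En 9 x t (Nat.mul 2 sd) p), ng (En 9 x t (Nat.succ (Nat.mul 2 sd)) q), ps (En 5 x 0 0 p),
      ng (En 5 x 0 0 q), ps (En 5 (nbf K TB (nbf K TB x t) t) 0 0 p)]

def c23 (K NP NW TB : ℕ) (x s t sd io io' q : ℕ) : List ℕ :=
  cd (lb x NW && lb s (Nat.mul 6 K) && lb t (Nat.mul 6 K) && lb sd 2 && lb io 2 && lb io' 2 && lb q 6 && lb (nbf K TB x s) NW)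
    [ng (En 9 x t (Nat.add (Nat.mul 2 sd) io) q), ng (En 9 (nbf K TB x s) t (Nat.add (Nat.mul 2 sd) io') q)]

def c24 (K NP NW TB : ℕ) (x t b : ℕ) : List ℕ :=
  cd (lb x NW && lb t (Nat.mul 6 K) && lb b 4) (mp (fun q => ps (En 9 x t b q)) 6 [])

def c25 (K NP NW TB : ℕ) (x t b q r : ℕ) : List ℕ :=
  cd (lb x NW && lb t (Nat.mul 6 K) && lb b 4 && !(Nat.beq q r)) [ng (En 9 x t b q), ng (En 9 x t b r)]

def c26 (K NP NW TB : ℕ) (x t b : ℕ) : List ℕ :=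
  cd (lb x NW && lb t (Nat.mul 6 K) && lb b 4) (mp (fun q => ps (En 10 x t b q)) 7 [])

def c27 (K NP NW TB : ℕ) (x t b q r : ℕ) : List ℕ :=
  cd (lb x NW && lb t (Nat.mul 6 K) && lb b 4 && !(Nat.beq q r)) [ng (En 10 x t b q), ng (En 10 x t b r)]

def c28 (K NP NW TB : ℕ) (x t b q : ℕ) : List ℕ :=
  cd (lb x NW && lb t (Nat.mul 6 K) && lb b 4 && lb q 6) [ng (En 10 x t b q), ps (En 4 x 0 0 q)]

def c29 (K NP NW TB : ℕ) (x t b q : ℕ) : List ℕ :=
  cd (lb x NW && lb t (Nat.mul 6 K) && lb b 4 && lb q 6) [ng (En 10 x t b q), ps (En 9 x t b q)]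

def c30 (K NP NW TB : ℕ) (x t sd io q r : ℕ) : List ℕ :=
  cd (lb x NW && lb t (Nat.mul 6 K) && lb sd 2 && lb io 2 && lb q 6 && lb r 6)
    [ng (En 10 x t (Nat.add (Nat.mul 2 sd) io) 6), ng (En 9 x t (Nat.mul 2 sd) q),
      ng (En 9 x t (Nat.succ (Nat.mul 2 sd)) r), ng (En 4 x 0 0 q), ng (En 4 x 0 0 r)]

def c31 (K NP NW TB : ℕ) (x t sd io io' q : ℕ) : List ℕ :=
  cd (lb x NW && lb t (Nat.mul 6 K) && lb sd 2 && lb io 2 && lb io' 2 && lb q 6)
    [ng (En 9 x t (Nat.add (Nat.mul 2 sd) io) q), ps (En 4 x 0 0 q),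
      ps (En 10 x t (Nat.add (Nat.mul 2 sd) io') 6)]

def c32 (K NP NW TB : ℕ) (x t sd io io' q : ℕ) : List ℕ :=
  cd (lb x NW && lb t (Nat.mul 6 K) && lb sd 2 && lb io 2 && lb io' 2 && lb q 6)
    [ng (En 10 x t (Nat.add (Nat.mul 2 sd) io) q), ng (En 10 x t (Nat.add (Nat.mul 2 sd) io') 6)]

/-- \`V\` atoms of the sector of 60 degrees -/
def s5 (x m q i : ℕ) : ℕ :=
  bif Nat.beq i 0 then En 0 x (Nat.mul 2 m) 0 q else bif Nat.beq i 1 then En 0 x (Nat.succ (Nat.mul 2 m)) 0 q else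
    En 0 x (Nat.succ (Nat.mul 2 m)) (Nat.sub i 1) q

/-- zones of a ray -/
def zr (x j q : ℕ) : List ℕ := mp (fun k => ps (En 0 x j (Nat.succ k) q)) 3 []

def c33 (K NP NW TB : ℕ) (x m q : ℕ) : List ℕ :=
  cd (lb x NW && lb m 6 && lb 1 K && lb q 6) (ng (En 11 x m 0 q) :: ps (En 0 x (Nat.mul 2 m) 0 q) ::
    ps (En 0 x (Nat.succ (Nat.mul 2 m)) 0 q) :: zr x (Nat.succ (Nat.mul 2 m)) q)

def c34 (K NP NW TB : ℕ) (x m q i : ℕ) : List ℕ :=
  cd (lb x NW && lb m 6 && lb 1 K && lb q 6 && lb i 5) [ng (s5 x m q i), ps (En 11 x m 0 q)]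

def c35 (K NP NW TB : ℕ) (x m q : ℕ) : List ℕ :=
  cd (lb x NW && lb m 6 && lb 1 K && lb q 6) (ng (En 12 x m 0 q) :: ps (En 0 x (Nat.mul 2 m) 0 q) ::
    zr x (Nat.succ (Nat.mul 2 m)) q)

def c36 (K NP NW TB : ℕ) (x m q i : ℕ) : List ℕ :=
  cd (lb x NW && lb m 6 && lb 1 K && lb q 6 && lb i 5 && !(Nat.beq i 1)) [ng (s5 x m q i), ps (En 12 x m 0 q)]

def c37 (K NP NW TB : ℕ) (x m q : ℕ) : List ℕ :=
  cd (lb x NW && lb m 6 && lb 1 K && lb q 6) (ng (En 13 x m 0 q) :: ps (En 0 x (Nat.succ (Nat.mul 2 m)) 0 q) ::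
    zr x (Nat.succ (Nat.mul 2 m)) q)

def c38 (K NP NW TB : ℕ) (x m q i : ℕ) : List ℕ :=
  cd (lb x NW && lb m 6 && lb 1 K && lb q 6 && lb i 5 && !(Nat.beq i 0)) [ng (s5 x m q i), ps (En 13 x m 0 q)]

def c39 (K NP NW TB : ℕ) (x m q : ℕ) : List ℕ := cd (Nat.beq K 2 && lb x NW && lb m 6 && lb 1 K && lb q 6) [ng (En 14 x m 0 q), ps (En 11 x m 0 q)]

def c40 (K NP NW TB : ℕ) (x m q : ℕ) : List ℕ := cd (Nat.beq K 2 && lb x NW && lb m 6 && lb 1 K && lb q 6) (ng (En 14 x m 0 q) :: zr x (Nat.mul 2 m) q)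

def c41 (K NP NW TB : ℕ) (x m q : ℕ) : List ℕ := cd (Nat.beq K 2 && lb x NW && lb m 6 && lb 1 K && lb q 6) [ng (En 15 x m 0 q), ps (En 11 x m 0 q)]

def c42 (K NP NW TB : ℕ) (x m q : ℕ) : List ℕ :=
  cd (Nat.beq K 2 && lb x NW && lb m 6 && lb 1 K && lb q 6) (ng (En 15 x m 0 q) :: zr x (ad K (Nat.mul 2 m) 2) q)

def c44 (K NP NW TB : ℕ) (x t b q : ℕ) : List ℕ :=
  cd (lb x NW && lb t (Nat.mul 6 K) && lb b 4 && lb q 6) [ps (En 10 x t b 6), ng (En 9 x t b q), ps (En 10 x t b q)]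

/-- no overlap: the outer colour of a letter with two colours is a colour of the centre -/
def c43 (K NP NW TB : ℕ) (x t sd p q : ℕ) : List ℕ :=
  cd (lb x NW && lb t (Nat.mul 6 K) && lb sd 2 && lb p 6 && lb q 6 && !(Nat.beq p q))
    [ng (En 9 x t (Nat.mul 2 sd) p), ng (En 9 x t (Nat.succ (Nat.mul 2 sd)) q), ps (En 5 x 0 0 q)]

/-- bit test -/
def bt (m q : ℕ) : Bool := Nat.beq (Nat.land (Nat.shiftRight m q) 1) 1

/-- three different colours -/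
def t3 (a b c : ℕ) : Bool := lb a 6 && lb b 6 && lb c 6 && !(Nat.beq a b) && !(Nat.beq a c) && !(Nat.beq b c)

/-- a neighbour of a point with at most three colours has another colour -/
def c45 (K NP NW TB : ℕ) (x t S a b c : ℕ) : List ℕ :=
  cd (lb x NP && lb t (Nat.mul 6 K) && lb (nbf K TB x t) NP && t3 a b c)
    (ps (En 4 x 0 0 a) :: ps (En 4 x 0 0 b) :: ps (En 4 x 0 0 c) ::
      mp (fun q => bif bt S q then ng (En 4 x 0 0 q) else ps (En 4 (nbf K TB x t) 0 0 q)) 6 [])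

/-- lemma X -/
def c46 (K NP NW TB : ℕ) (x t s q S b c : ℕ) : List ℕ :=
  cd (lb x NP && lb t (Nat.mul 6 K) && lb s (Nat.mul 6 K) && lb (nbf K TB x t) NP &&
      lb (nbf K TB (nbf K TB x t) s) NP && !(Nat.beq s t) && !(Nat.beq s (ad K t (Nat.mul 3 K))) && t3 q b c)
    (ng (En 5 (nbf K TB (nbf K TB x t) s) 0 0 q) :: ps (En 4 x 0 0 q) :: ps (En 4 x 0 0 b) :: ps (En 4 x 0 0 c) ::
      mp (fun r => bif Nat.beq r q then ps (En 4 x 0 0 q) else bif bt S r then ng (En 4 x 0 0 r) else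
        ps (En 4 (nbf K TB x t) 0 0 r)) 6 [])

/-- lemma X for letters -/
def c47 (K NP NW TB : ℕ) (x t sd q S b c : ℕ) : List ℕ :=
  cd (lb x NW && lb t (Nat.mul 6 K) && lb sd 2 && lb (nbf K TB x t) NP && t3 q b c)
    (ps (En 9 x t (Nat.mul 2 sd) q) :: ps (En 9 x t (Nat.succ (Nat.mul 2 sd)) q) :: ps (En 4 x 0 0 q) ::
      ps (En 4 x 0 0 b) :: ps (En 4 x 0 0 c) ::
      mp (fun r => bif Nat.beq r q then ps (En 4 x 0 0 q) else bif bt S r then ng (En 4 x 0 0 r) else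
        ps (En 4 (nbf K TB x t) 0 0 r)) 6 [])

/-- lemma B -/
def c48 (K NP NW TB : ℕ) (x s t i j : ℕ) : List ℕ :=
  cd (lb x NP && lb s (Nat.mul 6 K) && lb t (Nat.mul 6 K) && lb i 6 && lb j 6 && lb (nbf K TB x s) NP &&
      lb (nbf K TB x t) NP && !(Nat.beq t s) && !(Nat.beq t (ad K s (Nat.mul 3 K))))
    (ng (En 5 (nbf K TB x s) 0 0 i) :: ng (En 5 (nbf K TB x t) 0 0 j) ::
      mp (fun r => bif Nat.beq r i || Nat.beq r j then ng (En 5 (nbf K TB x s) 0 0 i) else ps (En 4 x 0 0 r)) 6 [])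

/-- lemma B for letters -/
def c49 (K NP NW TB : ℕ) (x t sd i j : ℕ) : List ℕ :=
  cd (lb x NW && lb t (Nat.mul 6 K) && lb sd 2 && lb i 6 && lb j 6 && lb (nbf K TB x t) NP)
    (ng (En 5 x 0 0 i) :: ps (En 9 x t (Nat.mul 2 sd) j) :: ps (En 9 x t (Nat.succ (Nat.mul 2 sd)) j) ::
      mp (fun r => bif Nat.beq r i || Nat.beq r j then ng (En 5 x 0 0 i) else ps (En 4 (nbf K TB x t) 0 0 r)) 6 [])

/-- every sector has a colour in the adjacent zone of each of its two rays -/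
def c50 (K NP NW TB : ℕ) (x j sd S : ℕ) : List ℕ :=
  cd (lb x NP && lb j (Nat.mul 6 K))
    (bif Nat.beq sd 0 then mp (fun q => bif bt S q then ps (En 0 x j 0 q) else ps (En 0 x (ad K j 1) 1 q)) 6 []
      else mp (fun q => bif bt S q then ps (En 0 x j 0 q) else ps (En 0 x j 3 q)) 6 [])

/-- some colour accumulates -/
def c51 (K NP NW TB : ℕ) (x m sd : ℕ) : List ℕ :=
  cd (Nat.beq K 2 && lb x NW && lb m 6)
    (bif Nat.beq sd 0 then mp (fun q => ps (En 14 x m 0 q)) 6 [] else mp (fun q => ps (En 15 x m 0 q)) 6 [])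

/-- a colour which accumulates is in the adjacent zone -/
def c52 (K NP NW TB : ℕ) (x m sd q : ℕ) : List ℕ :=
  cd (Nat.beq K 2 && lb x NW && lb m 6 && lb q 6)
    (bif Nat.beq sd 0 then [ng (En 14 x m 0 q), ps (En 0 x (Nat.mul 2 m) 3 q)]
      else [ng (En 15 x m 0 q), ps (En 0 x (ad K (Nat.mul 2 m) 2) 1 q)])

/-- partner with palette -/
def c53 (K NP NW TB : ℕ) (x q : ℕ) : List ℕ :=
  cd (lb x NP && lb q 6) (ng (En 4 x 0 0 q) :: ng (En 6 x 0 0 0) ::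
    mp (fun s => bif lb (nbf K TB x s) NP then ps (En 5 (nbf K TB x s) 0 0 q) else ps (En 7 x s 0 q)) (Nat.mul 6 K)
      (mp (fun s => bif lb (nbf K TB x s) NP then ng (En 4 x 0 0 q) else ps (En 7 x (ad K s (Nat.mul 3 K)) 0 q))
        (Nat.mul 6 K) (mp (fun s => ps (En 8 x s 0 q)) (Nat.mul 6 K) [])))

/-! ### soundness -/

theorem cix {K k j : ℕ} (hk : k < 4) (hj : j < 6 * K) : 6 * K * k + j < 24 * K ∧
    Nat.mod (6 * K * k + j) (6 * K) = j ∧ Nat.div (6 * K * k + j) (6 * K) = k := by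
  refine ⟨?_, ?_, ?_⟩
  · interval_cases k <;> omega
  · show (6 * K * k + j) % (6 * K) = j
    rw [Nat.mul_add_mod, Nat.mod_eq_of_lt hj]
  · show (6 * K * k + j) / (6 * K) = k
    rw [Nat.mul_add_div (by omega), Nat.div_eq_of_lt hj, add_zero]

theorem ad_lt {K a s : ℕ} (hK : 0 < K) : ad K a s < 6 * K := Nat.mod_lt _ (by show 0 < 6 * K; omega)

section
variable {K NP NW TB : ℕ} (M : Md K NP NW (nbf K TB))

theorem h0 (x j k : ℕ) : Ho M (c0 K NP NW TB x j k) := by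
  refine ho_cd fun h => ?_
  have hK := M.hK
  have hNP := M.hNP
  have hNW := M.hNW
  simp only [Bool.and_eq_true, lb_iff, Nat.mul_eq] at h
  obtain ⟨⟨hx, hj⟩, hk⟩ := h
  obtain ⟨q, hq, h1⟩ := M.cell hk hx hj
  exact ho_mp hq (lv_ps.2 ((av0 (by omega) (by omega) (by omega)).2 h1))

theorem h1 (x j k q : ℕ) : Ho M (c1 K NP NW TB x j k q) := by
  refine ho_cd fun h => ?_
  have hK := M.hK
  have hNP := M.hNP
  have hNW := M.hNW
  simp only [Bool.and_eq_true, lb_iff, Nat.mul_eq] at h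
  obtain ⟨⟨⟨hx, hj⟩, hk⟩, hq⟩ := h
  refine hn fun h1 => hp ?_
  exact (av4 (by omega)).2 (M.vt hk hx hj hq ((av0 (by omega) (by omega) (by omega)).1 h1))

theorem h2 (x q : ℕ) : Ho M (c2 K NP NW TB x q) := by
  refine ho_cd fun h => ?_
  have hK := M.hK
  have hNP := M.hNP
  have hNW := M.hNW
  simp only [Bool.and_eq_true, lb_iff, Nat.mul_eq] at h
  obtain ⟨hx, hq⟩ := h
  refine hn fun h1 => ?_
  obtain ⟨k, hk, j, hj, h2⟩ := M.tv hx hq ((av4 (by omega)).1 h1)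
  obtain ⟨e0, e1, e2⟩ := cix (K := K) hk hj
  refine ho_mp (i := 6 * K * k + j) e0 (lv_ps.2 ?_)
  rw [Nat.mul_eq, e1, e2]
  exact (av0 (by omega) (by omega) (by omega)).2 h2

theorem h3 (x q : ℕ) : Ho M (c3 K NP NW TB x q) := by
  refine ho_cd fun h => ?_
  have hK := M.hK
  have hNP := M.hNP
  have hNW := M.hNW
  simp only [Bool.and_eq_true, lb_iff, Nat.mul_eq] at h
  obtain ⟨hx, hq⟩ := h
  refine hn fun h1 => hn fun h2 => ?_
  obtain ⟨r, hr, hrq, h3⟩ := M.xx2 hx hq ((av6 (by omega)).1 h1) ((av4 (by omega)).1 h2)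
  refine ho_mp (i := r) hr ?_
  have : Nat.beq r q = false := by
    rw [Bool.eq_false_iff, ne_eq, Nat.beq_eq]; exact hrq
  show lv M (bif Nat.beq r q then ng (En 6 x 0 0 0) else ps (En 4 x 0 0 r))
  rw [this, cond_false]
  exact lv_ps.2 ((av4 (by omega)).2 h3)

theorem h4 (x j k s q : ℕ) : Ho M (c4 K NP NW TB x j k s q) := by
  refine ho_cd fun h => ?_
  have hK := M.hK
  have hNP := M.hNP
  have hNW := M.hNW
  simp only [Bool.and_eq_true, lb_iff, Nat.mul_eq] at h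
  obtain ⟨⟨⟨⟨⟨hx, hj⟩, hk⟩, hs⟩, hq⟩, hc⟩ := h
  refine hn fun h1 => hp ?_
  exact (av2 (by omega) (by omega)).2 (M.vh hk hx hj hs hq hc ((av0 (by omega) (by omega) (by omega)).1 h1))

theorem h5 (x : ℕ) : Ho M (c5 K NP NW TB x) := by
  refine ho_cd fun h => ?_
  have hK := M.hK
  have hNP := M.hNP
  have hNW := M.hNW
  simp only [lb_iff] at h
  obtain ⟨q, hq, h1⟩ := M.five h
  exact ho_mp hq (lv_ng.2 fun h2 => h1 ((av4 (by omega)).1 h2))

theorem h6 (x q : ℕ) : Ho M (c6 K NP NW TB x q) := by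
  refine ho_cd fun h => ?_
  have hK := M.hK
  have hNP := M.hNP
  have hNW := M.hNW
  simp only [Bool.and_eq_true, lb_iff, Nat.mul_eq] at h
  obtain ⟨hx, hq⟩ := h
  refine hn fun h1 => hn fun h2 => ?_
  obtain ⟨s, hs, h3 | h3⟩ := M.hull hx hq ((av4 (by omega)).1 h1) ((av6 (by omega)).1 h2)
  · exact ho_mp hs (lv_ps.2 ((av7 (by omega) (by omega)).2 h3))
  · exact ho_mp_r (ho_mp hs (lv_ps.2 ((av8 (by omega) (by omega)).2 h3)))

theorem h7 (x j k s q : ℕ) : Ho M (c7 K NP NW TB x j k s q) := by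
  refine ho_cd fun h => ?_
  have hK := M.hK
  have hNP := M.hNP
  have hNW := M.hNW
  simp only [Bool.and_eq_true, lb_iff, Nat.mul_eq] at h
  obtain ⟨⟨⟨⟨⟨hx, hj⟩, hk⟩, hs⟩, hq⟩, hc⟩ := h
  refine hn fun h1 => ⟨_, List.mem_cons_self, lv_ng.2 fun h2 => ?_⟩
  exact (av7 (by omega) (by omega)).1 h1 k hk j hj hc ((av0 (by omega) (by omega) (by omega)).1 h2)

theorem h8 (x j k s q : ℕ) : Ho M (c8 K NP NW TB x j k s q) := by
  refine ho_cd fun h => ?_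
  have hK := M.hK
  have hNP := M.hNP
  have hNW := M.hNW
  simp only [Bool.and_eq_true, lb_iff, Nat.mul_eq] at h
  obtain ⟨⟨⟨⟨⟨hx, hj⟩, hk⟩, hs⟩, hq⟩, hc⟩ := h
  refine hn fun h1 => ⟨_, List.mem_cons_self, lv_ng.2 fun h2 => ?_⟩
  exact (av8 (by omega) (by omega)).1 h1 k hk j hj hc ((av0 (by omega) (by omega) (by omega)).1 h2)

theorem h9 (x q : ℕ) : Ho M (c9 K NP NW TB x q) := by
  refine ho_cd fun h => ?_
  have hK := M.hK
  have hNP := M.hNP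
  have hNW := M.hNW
  simp only [Bool.and_eq_true, lb_iff, Nat.mul_eq] at h
  obtain ⟨hx, hq⟩ := h
  exact hn fun h1 => hp ((av5 (by omega)).2 (M.tp hx hq ((av4 (by omega)).1 h1)))

theorem h10 (x j k q : ℕ) : Ho M (c10 K NP NW TB x j k q) := by
  refine ho_cd fun h => ?_
  have hK := M.hK
  have hNP := M.hNP
  have hNW := M.hNW
  simp only [Bool.and_eq_true, lb_iff, Nat.mul_eq] at h
  obtain ⟨⟨⟨hx, hj⟩, hk⟩, hq⟩ := h
  exact hn fun h1 => hp ((av5 (by omega)).2 (M.pvp hk hx hj hq ((av1 (by omega) (by omega) (by omega)).1 h1)))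

theorem h11 (x j k q : ℕ) : Ho M (c11 K NP NW TB x j k q) := by
  refine ho_cd fun h => ?_
  have hK := M.hK
  have hNP := M.hNP
  have hNW := M.hNW
  simp only [Bool.and_eq_true, lb_iff, Nat.mul_eq] at h
  obtain ⟨⟨⟨hx, hj⟩, hk⟩, hq⟩ := h
  exact hn fun h1 => hp ((av1 (by omega) (by omega) (by omega)).2
    (M.vpv hk hx hj hq ((av0 (by omega) (by omega) (by omega)).1 h1)))

theorem h12 (x q : ℕ) : Ho M (c12 K NP NW TB x q) := by
  refine ho_cd fun h => ?_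
  have hK := M.hK
  have hNP := M.hNP
  have hNW := M.hNW
  simp only [Bool.and_eq_true, lb_iff, Nat.mul_eq] at h
  obtain ⟨hx, hq⟩ := h
  refine hn fun h1 => ?_
  obtain ⟨k, hk, j, hj, h2⟩ := M.ppv hx hq ((av5 (by omega)).1 h1)
  obtain ⟨e0, e1, e2⟩ := cix (K := K) hk hj
  refine ho_mp (i := 6 * K * k + j) e0 (lv_ps.2 ?_)
  rw [Nat.mul_eq, e1, e2]
  exact (av1 (by omega) (by omega) (by omega)).2 h2

theorem h13 (x j k s q : ℕ) : Ho M (c13 K NP NW TB x j k s q) := by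
  refine ho_cd fun h => ?_
  have hK := M.hK
  have hNP := M.hNP
  have hNW := M.hNW
  simp only [Bool.and_eq_true, lb_iff, Nat.mul_eq] at h
  obtain ⟨⟨⟨⟨⟨hx, hj⟩, hk⟩, hs⟩, hq⟩, hc⟩ := h
  refine hn fun h1 => hp ?_
  exact (av3 (by omega) (by omega)).2 (M.pvh hk hx hj hs hq hc ((av1 (by omega) (by omega) (by omega)).1 h1))

theorem h14 (x t q : ℕ) : Ho M (c14 K NP NW TB x t q) := by
  refine ho_cd fun h => ?_
  have hK := M.hK
  have hNP := M.hNP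
  have hNW := M.hNW
  simp only [Bool.and_eq_true, lb_iff, Nat.mul_eq] at h
  obtain ⟨⟨⟨hx, ht'⟩, hq⟩, hy⟩ := h
  exact hn fun h1 => hn fun h2 => hp ((av6 (by omega)).2
    (M.xxp hx ht' hq hy ((av4 (by omega)).1 h1) ((av5 (by omega)).1 h2)))

theorem h15 (x t q : ℕ) : Ho M (c15 K NP NW TB x t q) := by
  refine ho_cd fun h => ?_
  have hK := M.hK
  have hNP := M.hNP
  have hNW := M.hNW
  simp only [Bool.and_eq_true, lb_iff, Nat.mul_eq] at h
  obtain ⟨⟨⟨hx, ht'⟩, hq⟩, hy⟩ := h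
  exact hn fun h1 => hn fun h2 => hp ((av6 (by omega)).2
    (M.xxp hx ht' hq hy ((av4 (by omega)).1 h1) (M.tp hy hq ((av4 (by omega)).1 h2))))

theorem lkT_cases {x s q i : ℕ} (hx : x < NP) (hs : s < 6 * K) (hi : i < 4) :
    (i = 0 ∧ (av M (lkT K x s q i) ↔ M.H x s q)) ∨ (i = 1 ∧ (av M (lkT K x s q i) ↔ M.H x (ad K s (3 * K)) q)) ∨
    (i = 2 ∧ (av M (lkT K x s q i) ↔ M.V 2 x s q)) ∨ (i = 3 ∧ (av M (lkT K x s q i) ↔ M.V 2 x (ad K s (3 * K)) q)) := by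
  have hK := M.hK
  have hNP := M.hNP
  have ha := ad_lt (K := K) (a := s) (s := Nat.mul 3 K) (by omega)
  interval_cases i
  · exact Or.inl ⟨rfl, av2 (by omega) (by omega)⟩
  · exact Or.inr (Or.inl ⟨rfl, av2 (by omega) (by omega)⟩)
  · exact Or.inr (Or.inr (Or.inl ⟨rfl, av0 (by omega) (by omega) (by omega)⟩))
  · exact Or.inr (Or.inr (Or.inr ⟨rfl, av0 (by omega) (by omega) (by omega)⟩))

theorem lkP_cases {x s q i : ℕ} (hx : x < NP) (hs : s < 6 * K) (hi : i < 4) :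
    (i = 0 ∧ (av M (lkP K x s q i) ↔ M.PH x s q)) ∨ (i = 1 ∧ (av M (lkP K x s q i) ↔ M.PH x (ad K s (3 * K)) q)) ∨
    (i = 2 ∧ (av M (lkP K x s q i) ↔ M.PV 2 x s q)) ∨ (i = 3 ∧ (av M (lkP K x s q i) ↔ M.PV 2 x (ad K s (3 * K)) q)) := by
  have hK := M.hK
  have hNP := M.hNP
  have ha := ad_lt (K := K) (a := s) (s := Nat.mul 3 K) (by omega)
  interval_cases i
  · exact Or.inl ⟨rfl, av3 (by omega) (by omega)⟩
  · exact Or.inr (Or.inl ⟨rfl, av3 (by omega) (by omega)⟩)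
  · exact Or.inr (Or.inr (Or.inl ⟨rfl, av1 (by omega) (by omega) (by omega)⟩))
  · exact Or.inr (Or.inr (Or.inr ⟨rfl, av1 (by omega) (by omega) (by omega)⟩))

theorem lkTP {x s q i : ℕ} (hx : x < NP) (hs : s < 6 * K) (hq : q < 6) (hi : i < 4) (h : av M (lkT K x s q i)) :
    av M (lkP K x s q i) := by
  have hK := M.hK
  have hNP := M.hNP
  have ha := ad_lt (K := K) (a := s) (s := Nat.mul 3 K) (by omega)
  rcases lkT_cases M (q := q) hx hs hi with ⟨rfl, e⟩ | ⟨rfl, e⟩ | ⟨rfl, e⟩ | ⟨rfl, e⟩ <;> rw [e] at h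
  · exact (av3 (by omega) (by omega)).2 (M.hph hx hs hq h)
  · exact (av3 (by omega) (by omega)).2 (M.hph hx ha hq h)
  · exact (av1 (by omega) (by omega) (by omega)).2 (M.vpv (by norm_num) hx hs hq h)
  · exact (av1 (by omega) (by omega) (by omega)).2 (M.vpv (by norm_num) hx ha hq h)

theorem lk {x s q i i' : ℕ} (hx : x < NP) (hs : s < 6 * K) (hq : q < 6) (hy : nbf K TB x s < NP) (hi : i < 4)
    (hi' : i' < 4) (hc : xor (Nat.beq i 0) (Nat.beq i' 1) = true) (h1 : av M (lkT K x s q i))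
    (h2 : av M (lkP K (nbf K TB x s) s q i')) : False := by
  rcases lkT_cases M (q := q) hx hs hi with ⟨rfl, e⟩ | ⟨rfl, e⟩ | ⟨rfl, e⟩ | ⟨rfl, e⟩ <;> rw [e] at h1 <;>
  rcases lkP_cases M (q := q) hy hs hi' with ⟨rfl, e'⟩ | ⟨rfl, e'⟩ | ⟨rfl, e'⟩ | ⟨rfl, e'⟩ <;> rw [e'] at h2 <;>
  first
  | (cases hc; done)
  | exact (M.lk1 hx hs hq hy h1).1 h2
  | exact (M.lk1 hx hs hq hy h1).2.1 h2
  | exact (M.lk1 hx hs hq hy h1).2.2 h2
  | exact (M.lk2 hx hs hq hy h2).1 h1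
  | exact (M.lk2 hx hs hq hy h2).2.1 h1
  | exact (M.lk2 hx hs hq hy h2).2.2 h1

theorem h16 (x s q i i' e : ℕ) : Ho M (c16 K NP NW TB x s q i i' e) := by
  refine ho_cd fun h => ?_
  have hK := M.hK
  have hNP := M.hNP
  have hNW := M.hNW
  simp only [Bool.and_eq_true, lb_iff, Nat.mul_eq] at h
  obtain ⟨⟨⟨⟨⟨⟨hx, hs⟩, hq⟩, hy⟩, hi⟩, hi'⟩, hc⟩ := h
  refine hn fun h1 => ⟨_, List.mem_cons_self, lv_ng.2 fun h2 => ?_⟩
  cases he : Nat.beq e 0
  · rw [he, cond_false] at h2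
    exact lk M hx hs hq hy hi hi' hc h1 (lkTP M hy hs hq hi' h2)
  · rw [he, cond_true] at h2
    exact lk M hx hs hq hy hi hi' hc h1 h2

theorem av9' {x t sd io q : ℕ} (hx : x < 4096) (ht : t < 256) (hs : sd < 2) (hi : io < 2) :
    av M (En 9 x t (Nat.add (Nat.mul 2 sd) io) q) ↔ M.W x t sd io = q := by
  have e : Nat.add (Nat.mul 2 sd) io = 2 * sd + io := rfl
  rw [e, av9 hx ht (by omega)]
  have e1 : (2 * sd + io) / 2 = sd := by omega
  have e2 : (2 * sd + io) % 2 = io := by omega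
  rw [e1, e2]

theorem av9a {x t sd q : ℕ} (hx : x < 4096) (ht : t < 256) (hs : sd < 2) :
    av M (En 9 x t (Nat.mul 2 sd) q) ↔ M.W x t sd 0 = q := av9' M (io := 0) hx ht hs (by norm_num)

theorem av9b {x t sd q : ℕ} (hx : x < 4096) (ht : t < 256) (hs : sd < 2) :
    av M (En 9 x t (Nat.succ (Nat.mul 2 sd)) q) ↔ M.W x t sd 1 = q := av9' M (io := 1) hx ht hs (by norm_num)

theorem av10' {x t sd io q : ℕ} (hx : x < 4096) (ht : t < 256) (hs : sd < 2) (hi : io < 2) :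
    av M (En 10 x t (Nat.add (Nat.mul 2 sd) io) q) ↔ M.L x t sd io = q := by
  have e : Nat.add (Nat.mul 2 sd) io = 2 * sd + io := rfl
  rw [e, av10 hx ht (by omega)]
  have e1 : (2 * sd + io) / 2 = sd := by omega
  have e2 : (2 * sd + io) % 2 = io := by omega
  rw [e1, e2]

theorem h17 (x t sd q : ℕ) : Ho M (c17 K NP NW TB x t sd q) := by
  refine ho_cd fun h => ?_
  have hK := M.hK
  have hNP := M.hNP
  have hNW := M.hNW
  simp only [Bool.and_eq_true, lb_iff, Nat.mul_eq] at h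
  obtain ⟨⟨⟨hx, ht'⟩, hs⟩, hq⟩ := h
  refine hn fun h1 => hn fun h2 => ⟨_, List.mem_cons_self, lv_ng.2 fun h3 => ?_⟩
  rw [av9a M (by omega) (by omega) hs] at h1
  rw [av9b M (by omega) (by omega) hs] at h2
  rw [av5 (by omega)] at h3
  exact M.wa hx ht' hs (by rw [h1, h2]) (by rw [h1]; exact h3)

theorem h18 (x t b k j q : ℕ) : Ho M (c18 K NP NW TB x t b k j q) := by
  refine ho_cd fun h => ?_
  have hK := M.hK
  have hNP := M.hNP
  have hNW := M.hNW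
  simp only [Bool.and_eq_true, lb_iff, Nat.mul_eq] at h
  obtain ⟨⟨⟨⟨⟨⟨hx, ht'⟩, hb⟩, hk⟩, hj⟩, hq⟩, hc⟩ := h
  refine hn fun h1 => ⟨_, List.mem_cons_self, lv_ng.2 fun h2 => ?_⟩
  rw [av9 (by omega) (by omega) (by omega)] at h1
  rw [av1 (by omega) (by omega) (by omega)] at h2
  have e1 : Nat.div b 2 = b / 2 := rfl
  have e2 : Nat.mod b 2 = b % 2 := rfl
  rw [e1, e2] at hc
  exact M.wb hx ht' (by omega) (by omega) hk hj hc (by rw [h1]; exact h2)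

theorem h19 (x t sd io io' q : ℕ) : Ho M (c19 K NP NW TB x t sd io io' q) := by
  refine ho_cd fun h => ?_
  have hK := M.hK
  have hNP := M.hNP
  have hNW := M.hNW
  simp only [Bool.and_eq_true, lb_iff, Nat.mul_eq] at h
  obtain ⟨⟨⟨⟨⟨hx, ht'⟩, hs⟩, hi⟩, hi'⟩, hq⟩ := h
  have ha := ad_lt (K := K) (a := t) (s := K) (by omega)
  refine hn fun h1 => ⟨_, List.mem_cons_self, lv_ng.2 fun h2 => ?_⟩
  rw [av9' M (by omega) (by omega) hs hi] at h1
  rw [av9' M (by omega) (by omega) hs hi'] at h2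
  exact M.w60 hx ht' hs hi hi' (by rw [h1, h2])

theorem gk_lt (sd io : ℕ) : gk sd io < 4 := by
  unfold gk
  cases Nat.beq io 0 <;> cases Nat.beq sd 1 <;> decide

theorem gt_lt {K sd t : ℕ} (h : t < 6 * K) : gt K sd t < 6 * K := by
  unfold gt
  cases Nat.beq sd 1
  · exact ad_lt (by omega)
  · exact h

theorem h20 (x t b q : ℕ) : Ho M (c20 K NP NW TB x t b q) := by
  refine ho_cd fun h => ?_
  have hK := M.hK
  have hNP := M.hNP
  have hNW := M.hNW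
  simp only [Bool.and_eq_true, lb_iff, Nat.mul_eq] at h
  obtain ⟨⟨⟨⟨hx, ht'⟩, hb⟩, hq⟩, hy⟩ := h
  refine hn fun h1 => hp ?_
  rw [av9 (by omega) (by omega) (by omega)] at h1
  have h2 := M.glue (x := x) (t := t) (sd := b / 2) (io := b % 2) hx ht' (by omega) (by omega) hy
  rw [h1] at h2
  have h3 := gk_lt (b / 2) (b % 2)
  have h4 := gt_lt (sd := b / 2) ht'
  exact (av0 (by omega) (lt_of_lt_of_le h4 hK) (lt_trans h3 (by norm_num))).2 h2

theorem h21 (x t sd p q : ℕ) : Ho M (c21 K NP NW TB x t sd p q) := by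
  refine ho_cd fun h => ?_
  have hK := M.hK
  have hNP := M.hNP
  have hNW := M.hNW
  simp only [Bool.and_eq_true, lb_iff, Nat.mul_eq] at h
  obtain ⟨⟨⟨⟨⟨hx, ht'⟩, hs⟩, hp'⟩, hq⟩, hpq⟩ := h
  have hpq : p ≠ q := by
    rintro rfl; simp at hpq
  refine hn fun h1 => hn fun h2 => hn fun h3 => hp ?_
  rw [av9a M (by omega) (by omega) hs] at h1
  rw [av9b M (by omega) (by omega) hs] at h2
  rw [av5 (by omega)] at h3
  rw [av5 (by omega)]
  have := M.wc hx ht' hs (by rw [h1, h2]; exact hpq) (by rw [h1]; exact h3)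
  rwa [h2] at this

theorem h43 (x t sd p q : ℕ) : Ho M (c43 K NP NW TB x t sd p q) := by
  refine ho_cd fun h => ?_
  have hK := M.hK
  have hNP := M.hNP
  have hNW := M.hNW
  simp only [Bool.and_eq_true, lb_iff, Nat.mul_eq] at h
  obtain ⟨⟨⟨⟨⟨hx, ht'⟩, hs⟩, hp'⟩, hq⟩, hpq⟩ := h
  have hpq : p ≠ q := by
    rintro rfl; simp at hpq
  refine hn fun h1 => hn fun h2 => hp ?_
  rw [av9a M (by omega) (by omega) hs] at h1
  rw [av9b M (by omega) (by omega) hs] at h2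
  rw [av5 (by omega)]
  have := M.noov hx ht' hs (by rw [h1, h2]; exact hpq)
  rwa [h2] at this

theorem h22 (x t sd p q : ℕ) : Ho M (c22 K NP NW TB x t sd p q) := by
  refine ho_cd fun h => ?_
  have hK := M.hK
  have hNP := M.hNP
  have hNW := M.hNW
  simp only [Bool.and_eq_true, lb_iff, Nat.mul_eq] at h
  obtain ⟨⟨⟨⟨⟨⟨⟨hx, ht'⟩, hs⟩, hp'⟩, hq⟩, hpq⟩, hy⟩, hw⟩ := h
  have hpq : p ≠ q := by
    rintro rfl; simp at hpq
  refine hn fun h1 => hn fun h2 => hor fun h3 => hn fun h4 => hp ?_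
  rw [av9a M (by omega) (by omega) hs] at h1
  rw [av9b M (by omega) (by omega) hs] at h2
  rw [av5 (by omega)] at h3 h4
  rw [av5 (by omega)]
  have := M.wc2 hx ht' hs (by rw [h1, h2]; exact hpq) hy hw (by rw [h2]; exact h4) (by rw [h1]; exact h3)
  rwa [h1] at this

theorem h23 (x s t sd io io' q : ℕ) : Ho M (c23 K NP NW TB x s t sd io io' q) := by
  refine ho_cd fun h => ?_
  have hK := M.hK
  have hNP := M.hNP
  have hNW := M.hNW
  simp only [Bool.and_eq_true, lb_iff, Nat.mul_eq] at h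
  obtain ⟨⟨⟨⟨⟨⟨⟨hx, hs'⟩, ht'⟩, hs⟩, hi⟩, hi'⟩, hq⟩, hy⟩ := h
  refine hn fun h1 => ⟨_, List.mem_cons_self, lv_ng.2 fun h2 => ?_⟩
  rw [av9' M (by omega) (by omega) hs hi] at h1
  rw [av9' M (by omega) (by omega) hs hi'] at h2
  exact M.wpair hx hs' ht' hs hi hi' hy (by rw [h1, h2])

theorem h24 (x t b : ℕ) : Ho M (c24 K NP NW TB x t b) := by
  refine ho_cd fun h => ?_
  have hK := M.hK
  have hNP := M.hNP
  have hNW := M.hNW
  simp only [Bool.and_eq_true, lb_iff, Nat.mul_eq] at h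
  obtain ⟨⟨hx, ht'⟩, hb⟩ := h
  refine ho_mp (i := M.W x t (b / 2) (b % 2)) (M.wlt hx ht' (by omega) (by omega)) (lv_ps.2 ?_)
  exact (av9 (by omega) (by omega) (by omega)).2 rfl

theorem h25 (x t b q r : ℕ) : Ho M (c25 K NP NW TB x t b q r) := by
  refine ho_cd fun h => ?_
  have hK := M.hK
  have hNP := M.hNP
  have hNW := M.hNW
  simp only [Bool.and_eq_true, lb_iff, Nat.mul_eq] at h
  obtain ⟨⟨⟨hx, ht'⟩, hb⟩, hqr⟩ := h
  have hqr : q ≠ r := by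
    rintro rfl; simp at hqr
  refine hn fun h1 => ⟨_, List.mem_cons_self, lv_ng.2 fun h2 => ?_⟩
  rw [av9 (by omega) (by omega) (by omega)] at h1 h2
  exact hqr (h1.symm.trans h2)

theorem L_lt {x t sd io : ℕ} (hx : x < NW) (ht : t < 6 * K) (hs : sd < 2) (hi : io < 2) : M.L x t sd io < 7 := by
  classical
  unfold Md.L
  split
  · exact (M.wlt hx ht hs hi).trans (by norm_num)
  · norm_num

theorem h26 (x t b : ℕ) : Ho M (c26 K NP NW TB x t b) := by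
  refine ho_cd fun h => ?_
  have hK := M.hK
  have hNP := M.hNP
  have hNW := M.hNW
  simp only [Bool.and_eq_true, lb_iff, Nat.mul_eq] at h
  obtain ⟨⟨hx, ht'⟩, hb⟩ := h
  refine ho_mp (i := M.L x t (b / 2) (b % 2)) (L_lt M (by omega) ht' (by omega) (by omega)) (lv_ps.2 ?_)
  exact (av10 (by omega) (by omega) (by omega)).2 rfl

theorem h27 (x t b q r : ℕ) : Ho M (c27 K NP NW TB x t b q r) := by
  refine ho_cd fun h => ?_
  have hK := M.hK
  have hNP := M.hNP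
  have hNW := M.hNW
  simp only [Bool.and_eq_true, lb_iff, Nat.mul_eq] at h
  obtain ⟨⟨⟨hx, ht'⟩, hb⟩, hqr⟩ := h
  have hqr : q ≠ r := by
    rintro rfl; simp at hqr
  refine hn fun h1 => ⟨_, List.mem_cons_self, lv_ng.2 fun h2 => ?_⟩
  rw [av10 (by omega) (by omega) (by omega)] at h1 h2
  exact hqr (h1.symm.trans h2)

theorem L_ne {x t sd io q : ℕ} (hq : q < 6) (h : M.L x t sd io = q) :
    M.T x (M.W x t sd 0) ∧ M.T x (M.W x t sd 1) ∧ M.W x t sd io = q := by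
  classical
  unfold Md.L at h
  split at h
  · next h1 => exact ⟨h1.1, h1.2, h⟩
  · omega

theorem L_six {x t sd io : ℕ} (hw : M.W x t sd io < 6) (h : M.L x t sd io = 6) :
    ¬ (M.T x (M.W x t sd 0) ∧ M.T x (M.W x t sd 1)) := by
  classical
  unfold Md.L at h
  split at h
  · omega
  · next h1 => exact h1

theorem L_of {x t sd io : ℕ} (h : ¬ (M.T x (M.W x t sd 0) ∧ M.T x (M.W x t sd 1))) : M.L x t sd io = 6 := by
  classical
  unfold Md.L
  rw [if_neg h]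

theorem T_W {x t sd io : ℕ} (hi : io < 2) (h : M.T x (M.W x t sd 0) ∧ M.T x (M.W x t sd 1)) :
    M.T x (M.W x t sd io) := by
  interval_cases io
  · exact h.1
  · exact h.2

theorem h28 (x t b q : ℕ) : Ho M (c28 K NP NW TB x t b q) := by
  refine ho_cd fun h => ?_
  have hK := M.hK
  have hNP := M.hNP
  have hNW := M.hNW
  simp only [Bool.and_eq_true, lb_iff, Nat.mul_eq] at h
  obtain ⟨⟨⟨hx, ht'⟩, hb⟩, hq⟩ := h
  refine hn fun h1 => hp ?_
  rw [av10 (by omega) (by omega) (by omega)] at h1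
  rw [av4 (by omega)]
  obtain ⟨h2, h3, h4⟩ := L_ne M hq h1
  have := T_W M (io := b % 2) (by omega) ⟨h2, h3⟩
  rwa [h4] at this

theorem h29 (x t b q : ℕ) : Ho M (c29 K NP NW TB x t b q) := by
  refine ho_cd fun h => ?_
  have hK := M.hK
  have hNP := M.hNP
  have hNW := M.hNW
  simp only [Bool.and_eq_true, lb_iff, Nat.mul_eq] at h
  obtain ⟨⟨⟨hx, ht'⟩, hb⟩, hq⟩ := h
  refine hn fun h1 => hp ?_
  rw [av10 (by omega) (by omega) (by omega)] at h1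
  rw [av9 (by omega) (by omega) (by omega)]
  exact (L_ne M hq h1).2.2

theorem h30 (x t sd io q r : ℕ) : Ho M (c30 K NP NW TB x t sd io q r) := by
  refine ho_cd fun h => ?_
  have hK := M.hK
  have hNP := M.hNP
  have hNW := M.hNW
  simp only [Bool.and_eq_true, lb_iff, Nat.mul_eq] at h
  obtain ⟨⟨⟨⟨⟨hx, ht'⟩, hs⟩, hi⟩, hq⟩, hr⟩ := h
  refine hn fun h1 => hn fun h2 => hn fun h3 => hn fun h4 => ⟨_, List.mem_cons_self, lv_ng.2 fun h5 => ?_⟩
  rw [av10' M (by omega) (by omega) hs hi] at h1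
  rw [av9a M (by omega) (by omega) hs] at h2
  rw [av9b M (by omega) (by omega) hs] at h3
  rw [av4 (by omega)] at h4 h5
  exact L_six M (M.wlt (by omega) ht' hs hi) h1 (by rw [h2, h3]; exact ⟨h4, h5⟩)

theorem h31 (x t sd io io' q : ℕ) : Ho M (c31 K NP NW TB x t sd io io' q) := by
  refine ho_cd fun h => ?_
  have hK := M.hK
  have hNP := M.hNP
  have hNW := M.hNW
  simp only [Bool.and_eq_true, lb_iff, Nat.mul_eq] at h
  obtain ⟨⟨⟨⟨⟨hx, ht'⟩, hs⟩, hi⟩, hi'⟩, hq⟩ := h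
  refine hn fun h1 => hor fun h2 => hp ?_
  rw [av9' M (by omega) (by omega) hs hi] at h1
  rw [av4 (by omega)] at h2
  rw [av10' M (by omega) (by omega) hs hi']
  refine L_of M fun h3 => h2 ?_
  have := T_W M hi h3
  rwa [h1] at this

theorem h32 (x t sd io io' q : ℕ) : Ho M (c32 K NP NW TB x t sd io io' q) := by
  refine ho_cd fun h => ?_
  have hK := M.hK
  have hNP := M.hNP
  have hNW := M.hNW
  simp only [Bool.and_eq_true, lb_iff, Nat.mul_eq] at h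
  obtain ⟨⟨⟨⟨⟨hx, ht'⟩, hs⟩, hi⟩, hi'⟩, hq⟩ := h
  refine hn fun h1 => ⟨_, List.mem_cons_self, lv_ng.2 fun h2 => ?_⟩
  rw [av10' M (by omega) (by omega) hs hi] at h1
  rw [av10' M (by omega) (by omega) hs hi'] at h2
  obtain ⟨h3, h4, -⟩ := L_ne M hq h1
  exact L_six M (M.wlt (by omega) ht' hs hi') h2 ⟨h3, h4⟩

theorem s5_av {x m q i : ℕ} (hx : x < NW) (hm : m < 6) (hi : i < 5) :
    (i = 0 ∧ (av M (s5 x m q i) ↔ M.V 0 x (2 * m) q)) ∨ (i = 1 ∧ (av M (s5 x m q i) ↔ M.V 0 x (2 * m + 1) q)) ∨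
    (2 ≤ i ∧ ∃ k < 3, (av M (s5 x m q i) ↔ M.V (k + 1) x (2 * m + 1) q)) := by
  have hNP := M.hNP
  have hNW := M.hNW
  interval_cases i
  · exact Or.inl ⟨rfl, av0 (j := 2 * m) (by omega) (by omega) (by omega)⟩
  · exact Or.inr (Or.inl ⟨rfl, av0 (j := 2 * m + 1) (by omega) (by omega) (by omega)⟩)
  · exact Or.inr (Or.inr ⟨by norm_num, 0, by norm_num, av0 (j := 2 * m + 1) (k := 1) (by omega) (by omega) (by omega)⟩)
  · exact Or.inr (Or.inr ⟨by norm_num, 1, by norm_num, av0 (j := 2 * m + 1) (k := 2) (by omega) (by omega) (by omega)⟩)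
  · exact Or.inr (Or.inr ⟨by norm_num, 2, by norm_num, av0 (j := 2 * m + 1) (k := 3) (by omega) (by omega) (by omega)⟩)

theorem zr_ho {x j q : ℕ} (hx : x < NW) (hj : j < 6 * K) (h : ∃ k < 3, M.V (k + 1) x j q) : Ho M (zr x j q) := by
  have hK := M.hK
  have hNP := M.hNP
  have hNW := M.hNW
  obtain ⟨k, hk, h1⟩ := h
  exact ho_mp hk (lv_ps.2 ((av0 (k := k + 1) (by omega) (by omega) (by omega)).2 h1))

theorem h33 (x m q : ℕ) : Ho M (c33 K NP NW TB x m q) := by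
  refine ho_cd fun h => ?_
  have hK := M.hK
  have hNP := M.hNP
  have hNW := M.hNW
  simp only [Bool.and_eq_true, lb_iff, Nat.mul_eq] at h
  obtain ⟨⟨⟨hx, hm⟩, h1K⟩, hq⟩ := h
  refine hn fun h1 => ?_
  rw [av11 (by omega) (by omega)] at h1
  rcases h1 with h1 | h1 | h1
  · exact hp ((av0 (j := 2 * m) (by omega) (by omega) (by omega)).2 h1)
  · exact ht (hp ((av0 (j := 2 * m + 1) (by omega) (by omega) (by omega)).2 h1))
  · exact ht (ht (zr_ho M (j := 2 * m + 1) hx (by omega) h1))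

theorem h34 (x m q i : ℕ) : Ho M (c34 K NP NW TB x m q i) := by
  refine ho_cd fun h => ?_
  have hK := M.hK
  have hNP := M.hNP
  have hNW := M.hNW
  simp only [Bool.and_eq_true, lb_iff, Nat.mul_eq] at h
  obtain ⟨⟨⟨⟨hx, hm⟩, h1K⟩, hq⟩, hi⟩ := h
  refine hn fun h1 => hp ?_
  rw [av11 (by omega) (by omega)]
  rcases s5_av M (q := q) hx hm hi with ⟨-, e⟩ | ⟨-, e⟩ | ⟨-, k, hk, e⟩ <;> rw [e] at h1
  · exact Or.inl h1
  · exact Or.inr (Or.inl h1)
  · exact Or.inr (Or.inr ⟨k, hk, h1⟩)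

theorem h35 (x m q : ℕ) : Ho M (c35 K NP NW TB x m q) := by
  refine ho_cd fun h => ?_
  have hK := M.hK
  have hNP := M.hNP
  have hNW := M.hNW
  simp only [Bool.and_eq_true, lb_iff, Nat.mul_eq] at h
  obtain ⟨⟨⟨hx, hm⟩, h1K⟩, hq⟩ := h
  refine hn fun h1 => ?_
  rw [av12 (by omega) (by omega)] at h1
  rcases h1 with h1 | h1
  · exact hp ((av0 (j := 2 * m) (by omega) (by omega) (by omega)).2 h1)
  · exact ht (zr_ho M (j := 2 * m + 1) hx (by omega) h1)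

theorem h36 (x m q i : ℕ) : Ho M (c36 K NP NW TB x m q i) := by
  refine ho_cd fun h => ?_
  have hK := M.hK
  have hNP := M.hNP
  have hNW := M.hNW
  simp only [Bool.and_eq_true, lb_iff, Nat.mul_eq] at h
  obtain ⟨⟨⟨⟨⟨hx, hm⟩, h1K⟩, hq⟩, hi⟩, hc⟩ := h
  refine hn fun h1 => hp ?_
  rw [av12 (by omega) (by omega)]
  rcases s5_av M (q := q) hx hm hi with ⟨-, e⟩ | ⟨rfl, e⟩ | ⟨-, k, hk, e⟩
  · rw [e] at h1; exact Or.inl h1
  · cases hc
  · rw [e] at h1; exact Or.inr ⟨k, hk, h1⟩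

theorem h37 (x m q : ℕ) : Ho M (c37 K NP NW TB x m q) := by
  refine ho_cd fun h => ?_
  have hK := M.hK
  have hNP := M.hNP
  have hNW := M.hNW
  simp only [Bool.and_eq_true, lb_iff, Nat.mul_eq] at h
  obtain ⟨⟨⟨hx, hm⟩, h1K⟩, hq⟩ := h
  refine hn fun h1 => ?_
  rw [av13 (by omega) (by omega)] at h1
  rcases h1 with h1 | h1
  · exact hp ((av0 (j := 2 * m + 1) (by omega) (by omega) (by omega)).2 h1)
  · exact ht (zr_ho M (j := 2 * m + 1) hx (by omega) h1)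

theorem h38 (x m q i : ℕ) : Ho M (c38 K NP NW TB x m q i) := by
  refine ho_cd fun h => ?_
  have hK := M.hK
  have hNP := M.hNP
  have hNW := M.hNW
  simp only [Bool.and_eq_true, lb_iff, Nat.mul_eq] at h
  obtain ⟨⟨⟨⟨⟨hx, hm⟩, h1K⟩, hq⟩, hi⟩, hc⟩ := h
  refine hn fun h1 => hp ?_
  rw [av13 (by omega) (by omega)]
  rcases s5_av M (q := q) hx hm hi with ⟨rfl, e⟩ | ⟨-, e⟩ | ⟨-, k, hk, e⟩
  · cases hc
  · rw [e] at h1; exact Or.inl h1
  · rw [e] at h1; exact Or.inr ⟨k, hk, h1⟩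

theorem h39 (x m q : ℕ) : Ho M (c39 K NP NW TB x m q) := by
  refine ho_cd fun h => ?_
  have hK := M.hK
  have hNP := M.hNP
  have hNW := M.hNW
  simp only [Bool.and_eq_true, lb_iff, Nat.mul_eq] at h
  obtain ⟨⟨⟨⟨hK2, hx⟩, hm⟩, h1K⟩, hq⟩ := h
  have hK2 : K = 2 := Nat.eq_of_beq_eq_true hK2
  refine hn fun h1 => hp ?_
  rw [av14 (by omega) (by omega)] at h1
  rw [av11 (by omega) (by omega)]
  exact M.ars hK2 hx hm hq h1

theorem h40 (x m q : ℕ) : Ho M (c40 K NP NW TB x m q) := by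
  refine ho_cd fun h => ?_
  have hK := M.hK
  have hNP := M.hNP
  have hNW := M.hNW
  simp only [Bool.and_eq_true, lb_iff, Nat.mul_eq] at h
  obtain ⟨⟨⟨⟨hK2, hx⟩, hm⟩, h1K⟩, hq⟩ := h
  have hK2 : K = 2 := Nat.eq_of_beq_eq_true hK2
  refine hn fun h1 => ?_
  rw [av14 (by omega) (by omega)] at h1
  exact zr_ho M (j := 2 * m) hx (by omega) (M.arz hK2 hx hm hq h1)

theorem h41 (x m q : ℕ) : Ho M (c41 K NP NW TB x m q) := by
  refine ho_cd fun h => ?_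
  have hK := M.hK
  have hNP := M.hNP
  have hNW := M.hNW
  simp only [Bool.and_eq_true, lb_iff, Nat.mul_eq] at h
  obtain ⟨⟨⟨⟨hK2, hx⟩, hm⟩, h1K⟩, hq⟩ := h
  have hK2 : K = 2 := Nat.eq_of_beq_eq_true hK2
  refine hn fun h1 => hp ?_
  rw [av15 (by omega) (by omega)] at h1
  rw [av11 (by omega) (by omega)]
  exact M.als hK2 hx hm hq h1

theorem h42 (x m q : ℕ) : Ho M (c42 K NP NW TB x m q) := by
  refine ho_cd fun h => ?_
  have hK := M.hK
  have hNP := M.hNP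
  have hNW := M.hNW
  simp only [Bool.and_eq_true, lb_iff, Nat.mul_eq] at h
  obtain ⟨⟨⟨⟨hK2, hx⟩, hm⟩, h1K⟩, hq⟩ := h
  have hK2 : K = 2 := Nat.eq_of_beq_eq_true hK2
  refine hn fun h1 => ?_
  rw [av15 (by omega) (by omega)] at h1
  exact zr_ho M (j := ad K (2 * m) 2) hx (ad_lt (by omega)) (M.alz hK2 hx hm hq h1)

theorem h44 (x t b q : ℕ) : Ho M (c44 K NP NW TB x t b q) := by
  refine ho_cd fun h => ?_
  have hK := M.hK
  have hNP := M.hNP
  have hNW := M.hNW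
  simp only [Bool.and_eq_true, lb_iff, Nat.mul_eq] at h
  obtain ⟨⟨⟨hx, ht'⟩, hb⟩, hq⟩ := h
  refine hor fun h1 => hn fun h2 => hp ?_
  rw [av10 (by omega) (by omega) (by omega)] at h1
  rw [av9 (by omega) (by omega) (by omega)] at h2
  rw [av10 (by omega) (by omega) (by omega)]
  classical
  unfold Md.L at h1 ⊢
  split
  · exact h2
  · next h3 => rw [if_neg h3] at h1; exact absurd rfl h1

/-! ### small palettes, zones -/

theorem t3_spec {a b c : ℕ} (h : t3 a b c = true) : a < 6 ∧ b < 6 ∧ c < 6 ∧ a ≠ b ∧ a ≠ c ∧ b ≠ c := by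
  unfold t3 at h
  simp only [Bool.and_eq_true, lb_iff, Bool.not_eq_true'] at h
  obtain ⟨⟨⟨⟨⟨ha, hb⟩, hc⟩, h1⟩, h2⟩, h3⟩ := h
  refine ⟨ha, hb, hc, ?_, ?_, ?_⟩
  · rintro rfl; rw [Nat.beq_refl] at h1; cases h1
  · rintro rfl; rw [Nat.beq_refl] at h2; cases h2
  · rintro rfl; rw [Nat.beq_refl] at h3; cases h3

theorem nbeq_not {a b : ℕ} (h : (!(Nat.beq a b)) = true) : a ≠ b := by
  rintro rfl; simp at h

theorem h45 (x t S a b c : ℕ) : Ho M (c45 K NP NW TB x t S a b c) := by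
  refine ho_cd fun h => ?_
  have hK := M.hK
  have hNP := M.hNP
  simp only [Bool.and_eq_true, lb_iff, Nat.mul_eq] at h
  obtain ⟨⟨⟨hx, ht'⟩, hy⟩, h3⟩ := h
  obtain ⟨ha, hb, hc, hab, hac, hbc⟩ := t3_spec h3
  refine hor fun h1 => hor fun h2 => hor fun h3 => ?_
  rw [av4 (by omega)] at h1 h2 h3
  obtain ⟨q, hq, h4, h5⟩ := M.nsub hx ht' hy ⟨a, b, c, ha, hb, hc, hab, hac, hbc, h1, h2, h3⟩
  refine ho_mp hq ?_
  cases bt S q
  · exact lv_ps.2 ((av4 (by omega)).2 h4)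
  · exact lv_ng.2 fun h6 => h5 ((av4 (by omega)).1 h6)

theorem h46 (x t s q S b c : ℕ) : Ho M (c46 K NP NW TB x t s q S b c) := by
  refine ho_cd fun h => ?_
  have hK := M.hK
  have hNP := M.hNP
  simp only [Bool.and_eq_true, lb_iff, Nat.mul_eq] at h
  obtain ⟨⟨⟨⟨⟨⟨⟨hx, ht'⟩, hs⟩, hy⟩, hw⟩, hst⟩, hst2⟩, h3⟩ := h
  obtain ⟨ha, hb, hc, hab, hac, hbc⟩ := t3_spec h3
  refine hn fun h0 => hor fun h1 => hor fun h2 => hor fun h3 => ?_
  rw [av5 (by omega)] at h0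
  rw [av4 (by omega)] at h1 h2 h3
  by_cases hall : ∀ r < 6, r ≠ q → M.T (nbf K TB x t) r → M.T x r
  · exact absurd h0 (M.lmx hx ht' hs ha hy hw (nbeq_not hst) (nbeq_not hst2)
      ⟨q, b, c, ha, hb, hc, hab, hac, hbc, h1, h2, h3⟩ hall)
  · push Not at hall
    obtain ⟨r, hr, hrq, h4, h5⟩ := hall
    refine ho_mp hr ?_
    have e : Nat.beq r q = false := by
      rw [← Bool.not_eq_true]
      intro h6
      exact hrq (Nat.eq_of_beq_eq_true h6)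
    show lv M (bif Nat.beq r q then _ else _)
    rw [e, cond_false]
    cases bt S r
    · exact lv_ps.2 ((av4 (by omega)).2 h4)
    · exact lv_ng.2 fun h6 => h5 ((av4 (by omega)).1 h6)

theorem h47 (x t sd q S b c : ℕ) : Ho M (c47 K NP NW TB x t sd q S b c) := by
  refine ho_cd fun h => ?_
  have hK := M.hK
  have hNP := M.hNP
  have hNW := M.hNW
  simp only [Bool.and_eq_true, lb_iff, Nat.mul_eq] at h
  obtain ⟨⟨⟨⟨hx, ht'⟩, hs⟩, hy⟩, h3⟩ := h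
  obtain ⟨ha, hb, hc, hab, hac, hbc⟩ := t3_spec h3
  refine hor fun h6 => hor fun h7 => hor fun h1 => hor fun h2 => hor fun h3 => ?_
  rw [av9a M (by omega) (by omega) hs] at h6
  rw [av9b M (by omega) (by omega) hs] at h7
  rw [av4 (by omega)] at h1 h2 h3
  by_cases hall : ∀ r < 6, r ≠ q → M.T (nbf K TB x t) r → M.T x r
  · rcases M.lmxw hx ht' hs ha hy ⟨q, b, c, ha, hb, hc, hab, hac, hbc, h1, h2, h3⟩ hall with h8 | h8
    · exact absurd h8 h6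
    · exact absurd h8 h7
  · push Not at hall
    obtain ⟨r, hr, hrq, h4, h5⟩ := hall
    refine ho_mp hr ?_
    have e : Nat.beq r q = false := by
      rw [← Bool.not_eq_true]
      intro h6
      exact hrq (Nat.eq_of_beq_eq_true h6)
    show lv M (bif Nat.beq r q then _ else _)
    rw [e, cond_false]
    cases bt S r
    · exact lv_ps.2 ((av4 (by omega)).2 h4)
    · exact lv_ng.2 fun h6 => h5 ((av4 (by omega)).1 h6)

theorem beq_or {r i j : ℕ} (h : ¬ (r = i ∨ r = j)) : (Nat.beq r i || Nat.beq r j) = false := by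
  rw [← Bool.not_eq_true, Bool.or_eq_true]
  rintro (h1 | h1)
  · exact h (Or.inl (Nat.eq_of_beq_eq_true h1))
  · exact h (Or.inr (Nat.eq_of_beq_eq_true h1))

theorem h48 (x s t i j : ℕ) : Ho M (c48 K NP NW TB x s t i j) := by
  refine ho_cd fun h => ?_
  have hK := M.hK
  have hNP := M.hNP
  simp only [Bool.and_eq_true, lb_iff, Nat.mul_eq] at h
  obtain ⟨⟨⟨⟨⟨⟨⟨⟨hx, hs⟩, ht'⟩, hi⟩, hj⟩, hy⟩, hw⟩, hst⟩, hst2⟩ := h
  refine hn fun h1 => hn fun h2 => ?_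
  rw [av5 (by omega)] at h1 h2
  by_cases hall : ∀ r < 6, M.T x r → r = i ∨ r = j
  · exact absurd h2 (M.lmb hx hs ht' hi hj hy hw (nbeq_not hst) (nbeq_not hst2) hall h1)
  · push Not at hall
    obtain ⟨r, hr, h4, h5, h6⟩ := hall
    refine ho_mp hr ?_
    show lv M (bif Nat.beq r i || Nat.beq r j then _ else _)
    rw [beq_or (by rintro (h | h); exacts [h5 h, h6 h]), cond_false]
    exact lv_ps.2 ((av4 (by omega)).2 h4)

theorem h49 (x t sd i j : ℕ) : Ho M (c49 K NP NW TB x t sd i j) := by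
  refine ho_cd fun h => ?_
  have hK := M.hK
  have hNP := M.hNP
  have hNW := M.hNW
  simp only [Bool.and_eq_true, lb_iff, Nat.mul_eq] at h
  obtain ⟨⟨⟨⟨⟨hx, ht'⟩, hs⟩, hi⟩, hj⟩, hy⟩ := h
  refine hn fun h1 => hor fun h6 => hor fun h7 => ?_
  rw [av5 (by omega)] at h1
  rw [av9a M (by omega) (by omega) hs] at h6
  rw [av9b M (by omega) (by omega) hs] at h7
  by_cases hall : ∀ r < 6, M.T (nbf K TB x t) r → r = i ∨ r = j
  · rcases M.lmbw hx ht' hs hi hj hy hall h1 with h8 | h8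
    · exact absurd h8 h6
    · exact absurd h8 h7
  · push Not at hall
    obtain ⟨r, hr, h4, h5, h8⟩ := hall
    refine ho_mp hr ?_
    show lv M (bif Nat.beq r i || Nat.beq r j then _ else _)
    rw [beq_or (by rintro (h | h); exacts [h5 h, h8 h]), cond_false]
    exact lv_ps.2 ((av4 (by omega)).2 h4)

theorem h50 (x j sd S : ℕ) : Ho M (c50 K NP NW TB x j sd S) := by
  refine ho_cd fun h => ?_
  have hK := M.hK
  have hNP := M.hNP
  simp only [Bool.and_eq_true, lb_iff, Nat.mul_eq] at h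
  obtain ⟨hx, hj⟩ := h
  have hj' : ad K j 1 < 6 * K := ad_lt (by omega)
  cases Nat.beq sd 0
  · obtain ⟨q, hq, h1, h2⟩ := M.z1b hx hj
    rw [cond_false]
    refine ho_mp hq ?_
    cases bt S q
    · exact lv_ps.2 ((av0 (by omega) (by omega) (by omega)).2 h1)
    · exact lv_ps.2 ((av0 (by omega) (by omega) (by omega)).2 h2)
  · obtain ⟨q, hq, h1, h2⟩ := M.z1a hx hj
    rw [cond_true]
    refine ho_mp hq ?_
    cases bt S q
    · exact lv_ps.2 ((av0 (by omega) (by omega) (by omega)).2 h2)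
    · exact lv_ps.2 ((av0 (by omega) (by omega) (by omega)).2 h1)

theorem h51 (x m sd : ℕ) : Ho M (c51 K NP NW TB x m sd) := by
  refine ho_cd fun h => ?_
  have hK := M.hK
  have hNP := M.hNP
  have hNW := M.hNW
  simp only [Bool.and_eq_true, lb_iff, Nat.mul_eq] at h
  obtain ⟨⟨hK2, hx⟩, hm⟩ := h
  have hK2 : K = 2 := Nat.eq_of_beq_eq_true hK2
  cases Nat.beq sd 0
  · obtain ⟨q, hq, h1⟩ := M.alo hK2 hx hm
    rw [cond_false]
    exact ho_mp hq (lv_ps.2 ((av15 (by omega) (by omega)).2 h1))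
  · obtain ⟨q, hq, h1⟩ := M.aro hK2 hx hm
    rw [cond_true]
    exact ho_mp hq (lv_ps.2 ((av14 (by omega) (by omega)).2 h1))

theorem h52 (x m sd q : ℕ) : Ho M (c52 K NP NW TB x m sd q) := by
  refine ho_cd fun h => ?_
  have hK := M.hK
  have hNP := M.hNP
  have hNW := M.hNW
  simp only [Bool.and_eq_true, lb_iff, Nat.mul_eq] at h
  obtain ⟨⟨⟨hK2, hx⟩, hm⟩, hq⟩ := h
  have hK2 : K = 2 := Nat.eq_of_beq_eq_true hK2
  have h2 : ad K (2 * m) 2 < 6 * K := ad_lt (by omega)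
  cases Nat.beq sd 0
  · refine hn fun h1 => hp ?_
    exact (av0 (by omega) (lt_of_lt_of_le h2 hK) (by omega)).2 (M.al1 hK2 hx hm hq ((av15 (by omega) (by omega)).1 h1))
  · refine hn fun h1 => hp ?_
    have e : Nat.mul 2 m = 2 * m := rfl
    rw [e]
    exact (av0 (by omega) (by omega) (by omega)).2 (M.ar3 hK2 hx hm hq ((av14 (by omega) (by omega)).1 h1))

theorem h53 (x q : ℕ) : Ho M (c53 K NP NW TB x q) := by
  refine ho_cd fun h => ?_
  have hK := M.hK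
  have hNP := M.hNP
  simp only [Bool.and_eq_true, lb_iff, Nat.mul_eq] at h
  obtain ⟨hx, hq⟩ := h
  refine hn fun h1 => hn fun h2 => ?_
  obtain ⟨s, hs, ⟨h3, h4⟩ | h3⟩ := M.part hx hq ((av4 (by omega)).1 h1) ((av6 (by omega)).1 h2)
  · by_cases hy : nbf K TB x s < NP
    · refine ho_mp hs ?_
      show lv M (bif lb (nbf K TB x s) NP then _ else _)
      rw [lb_iff.2 hy, cond_true]
      exact lv_ps.2 ((av5 (by omega)).2 (h3 hy))
    · have e : lb (nbf K TB x s) NP = false := by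
        rw [← Bool.not_eq_true, lb_iff]; exact hy
      rcases h4 with h4 | h4
      · refine ho_mp hs ?_
        show lv M (bif lb (nbf K TB x s) NP then _ else _)
        rw [e, cond_false]
        exact lv_ps.2 ((av7 (by omega) (by omega)).2 h4)
      · have h6 : ad K s (3 * K) < 6 * K := ad_lt (by omega)
        refine ho_mp_r (ho_mp hs ?_)
        show lv M (bif lb (nbf K TB x s) NP then _ else _)
        rw [e, cond_false]
        exact lv_ps.2 ((av7 (by omega) (lt_of_lt_of_le h6 hK)).2 h4)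
  · exact ho_mp_r (ho_mp_r (ho_mp hs (lv_ps.2 ((av8 (by omega) (by omega)).2 h3))))

end

end Vale.Agent.P032.H820.K
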