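import Vale.Agent.P032W.H139.Lrat

/-!
# P032: the model of germs for several classes of directions

`K` classes of directions, `6 K` directions `t` (`t + K` is the direction `t` turned by 60 degrees; for `K = 2`: `t = 2 m`
is the direction `60 m`, `t = 2 m + 1` the direction `60 m + β`).  Points `x < NP`, word points `x < NW`.  `nb x t` is the
number of the point `x + u(t)` (at least `NP` if it has no number).

Cells at a point: ray `j` is the direction of `u(j)` turned by `+90` degrees, sector `j` is between the rays `j` and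
`j + 1`.  The cell `(0, j)` is the sector `j`, the cells `(1, j), (2, j), (3, j)` are the zones of the ray `j`: inside
the circle about `x + u(j)`, outside both circles, inside the circle about `x - u(j)`.

* `Md` : abstract form of all rules, `av` : meaning of the atoms (numbers),
* `gen` : the clause of a code, `gen_holds` : it holds in every model.
-/

namespace Vale.Agent.P032.H820.K

/-- the table of the neighbours: 12 bits for one entry -/
def nbf (K TB x t : ℕ) : ℕ :=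
  Nat.land (Nat.shiftRight TB (Nat.mul 12 (Nat.add (Nat.mul (Nat.mul 6 K) x) t))) 4095

/-- `a - s` modulo `6 K` -/
def df (K a s : ℕ) : ℕ := Nat.mod (Nat.sub (Nat.add a (Nat.mul 6 K)) s) (Nat.mul 6 K)

/-- addition modulo `6 K` -/
def ad (K a s : ℕ) : ℕ := Nat.mod (Nat.add a s) (Nat.mul 6 K)

/-- the cell `(k, j)` is inside the circle about `x + u(s)` -/
def hcell (K k j s : ℕ) : Bool :=
  bif Nat.beq k 0 then Nat.ble (Nat.mul 3 K) (df K j s) else
    (Nat.ble (Nat.succ (Nat.mul 3 K)) (df K j s) || (Nat.beq k 1 && Nat.beq (df K j s) 0) ||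
      (Nat.beq k 3 && Nat.beq (df K j s) (Nat.mul 3 K)))

/-- cells excluded for a half plane bounded by the ray `s` -/
def ecell (K k j s : ℕ) : Bool :=
  bif Nat.beq k 0 then Nat.ble (Nat.succ (df K j s)) (Nat.mul 3 K) else
    Nat.ble 1 (df K j s) && Nat.ble (Nat.succ (df K j s)) (Nat.mul 3 K)

/-- cells excluded for a half plane bounded inside the sector `s` -/
def fcell (K k j s : ℕ) : Bool :=
  bif Nat.beq k 0 then Nat.ble 1 (df K j s) && Nat.ble (Nat.succ (df K j s)) (Nat.mul 3 K) else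
    Nat.ble 1 (df K j s) && Nat.ble (df K j s) (Nat.mul 3 K)

/-- cells excluded for the colour of the inner (`io = 0`) or outer (`io = 1`) word letter at `t` -/
def wcell (K sd io k j t : ℕ) : Bool :=
  bif Nat.beq io 0 then
    (bif Nat.beq k 0 then Nat.ble (Nat.succ (df K j t)) (Nat.mul 3 K) else
      (Nat.ble 1 (df K j t) && Nat.ble (Nat.succ (df K j t)) (Nat.mul 3 K)) ||
      (bif Nat.beq sd 1 then Nat.beq (df K j t) (Nat.mul 3 K) || (Nat.beq (df K j t) 0 && Nat.ble 2 k)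
        else Nat.beq (df K j t) 0 || (Nat.beq (df K j t) (Nat.mul 3 K) && Nat.ble k 2)))
  else
    (bif Nat.beq k 0 then Nat.ble (Nat.mul 3 K) (df K j t) else
      Nat.ble (Nat.succ (Nat.mul 3 K)) (df K j t) ||
      (bif Nat.beq sd 1 then Nat.beq (df K j t) 0 || (Nat.beq (df K j t) (Nat.mul 3 K) && Nat.beq k 3)
        else Nat.beq (df K j t) (Nat.mul 3 K) || (Nat.beq (df K j t) 0 && Nat.beq k 1)))

/-- the zone of the colour of a word letter at the point of the circle -/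
def gk (sd io : ℕ) : ℕ := bif Nat.beq io 0 then (bif Nat.beq sd 1 then 3 else 1) else 2

/-- the ray of this zone -/
def gt (K sd t : ℕ) : ℕ := bif Nat.beq sd 1 then t else ad K t (Nat.mul 3 K)

/-- at least three colours are missing -/
def T3 (T : ℕ → Prop) : Prop :=
  ∃ a b c, a < 6 ∧ b < 6 ∧ c < 6 ∧ a ≠ b ∧ a ≠ c ∧ b ≠ c ∧ ¬ T a ∧ ¬ T b ∧ ¬ T c

/-- the germs of the colours at the `NP` points -/
structure Md (K NP NW : ℕ) (nb : ℕ → ℕ → ℕ) where
  hK : 6 * K ≤ 256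
  hNP : NP ≤ 4096
  hNW : NW ≤ NP
  /-- points with the single colour `q` accumulate at `x` in the cell `(k, j)` -/
  V : ℕ → ℕ → ℕ → ℕ → Prop
  /-- points of `U q` accumulate at `x` in the cell `(k, j)` -/
  PV : ℕ → ℕ → ℕ → ℕ → Prop
  /-- points with the single colour `q` accumulate at `x` inside the circle about `x + u(s)` -/
  H : ℕ → ℕ → ℕ → Prop
  PH : ℕ → ℕ → ℕ → Prop
  T : ℕ → ℕ → Prop
  P : ℕ → ℕ → Prop
  X : ℕ → Prop
  /-- word letters: colours just inside (`io = 0`) and outside (`io = 1`) of the circle about `x`, just before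
  (`sd = 0`) and just after (`sd = 1`) the direction `t` -/
  W : ℕ → ℕ → ℕ → ℕ → ℕ
  /-- the directions of the points with the single colour `q` accumulate at the ray `2 m` from the right,
  at the ray `2 m + 2` from the left (two classes) -/
  AR : ℕ → ℕ → ℕ → Prop
  AL : ℕ → ℕ → ℕ → Prop
  cell : ∀ {k x j}, k < 4 → x < NP → j < 6 * K → ∃ q < 6, V k x j q
  vt : ∀ {k x j q}, k < 4 → x < NP → j < 6 * K → q < 6 → V k x j q → T x q
  tv : ∀ {x q}, x < NP → q < 6 → T x q → ∃ k < 4, ∃ j < 6 * K, V k x j q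
  xx2 : ∀ {x q}, x < NP → q < 6 → X x → T x q → ∃ r < 6, r ≠ q ∧ T x r
  vh : ∀ {k x j s q}, k < 4 → x < NP → j < 6 * K → s < 6 * K → q < 6 → hcell K k j s = true → V k x j q → H x s q
  five : ∀ {x}, x < NP → ∃ q < 6, ¬ T x q
  hull : ∀ {x q}, x < NP → q < 6 → T x q → X x → ∃ s < 6 * K,
    (∀ k < 4, ∀ j < 6 * K, ecell K k j s = true → ¬ V k x j q) ∨ (∀ k < 4, ∀ j < 6 * K, fcell K k j s = true → ¬ V k x j q)
  tp : ∀ {x q}, x < NP → q < 6 → T x q → P x q
  vpv : ∀ {k x j q}, k < 4 → x < NP → j < 6 * K → q < 6 → V k x j q → PV k x j q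
  pvp : ∀ {k x j q}, k < 4 → x < NP → j < 6 * K → q < 6 → PV k x j q → P x q
  ppv : ∀ {x q}, x < NP → q < 6 → P x q → ∃ k < 4, ∃ j < 6 * K, PV k x j q
  pvh : ∀ {k x j s q}, k < 4 → x < NP → j < 6 * K → s < 6 * K → q < 6 → hcell K k j s = true → PV k x j q → PH x s q
  hph : ∀ {x s q}, x < NP → s < 6 * K → q < 6 → H x s q → PH x s q
  xxp : ∀ {x t q}, x < NP → t < 6 * K → q < 6 → nb x t < NP → T x q → P (nb x t) q → X x
  lk1 : ∀ {x s q}, x < NP → s < 6 * K → q < 6 → nb x s < NP → H x s q →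
    ¬ PH (nb x s) s q ∧ ¬ PV 2 (nb x s) s q ∧ ¬ PV 2 (nb x s) (ad K s (3 * K)) q
  lk2 : ∀ {x s q}, x < NP → s < 6 * K → q < 6 → nb x s < NP → PH (nb x s) (ad K s (3 * K)) q →
    ¬ H x (ad K s (3 * K)) q ∧ ¬ V 2 x s q ∧ ¬ V 2 x (ad K s (3 * K)) q
  wlt : ∀ {x t sd io}, x < NW → t < 6 * K → sd < 2 → io < 2 → W x t sd io < 6
  wa : ∀ {x t sd}, x < NW → t < 6 * K → sd < 2 → W x t sd 0 = W x t sd 1 → ¬ P x (W x t sd 0)
  wb : ∀ {x t sd io k j}, x < NW → t < 6 * K → sd < 2 → io < 2 → k < 4 → j < 6 * K → wcell K sd io k j t = true →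
    ¬ PV k x j (W x t sd io)
  w60 : ∀ {x t sd io io'}, x < NW → t < 6 * K → sd < 2 → io < 2 → io' < 2 → W x t sd io ≠ W x (ad K t K) sd io'
  glue : ∀ {x t sd io}, x < NW → t < 6 * K → sd < 2 → io < 2 → nb x t < NP →
    V (gk sd io) (nb x t) (gt K sd t) (W x t sd io)
  wc : ∀ {x t sd}, x < NW → t < 6 * K → sd < 2 → W x t sd 0 ≠ W x t sd 1 → P x (W x t sd 0) → P x (W x t sd 1)
  wc2 : ∀ {x t sd}, x < NW → t < 6 * K → sd < 2 → W x t sd 0 ≠ W x t sd 1 → nb x t < NP → nb (nb x t) t < NP →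
    P x (W x t sd 1) → ¬ P x (W x t sd 0) → P (nb (nb x t) t) (W x t sd 0)
  wpair : ∀ {x s t sd io io'}, x < NW → s < 6 * K → t < 6 * K → sd < 2 → io < 2 → io' < 2 → nb x s < NW →
    W x t sd io ≠ W (nb x s) t sd io'
  noov : ∀ {x t sd}, x < NW → t < 6 * K → sd < 2 → W x t sd 0 ≠ W x t sd 1 → P x (W x t sd 1)
  nsub : ∀ {x t}, x < NP → t < 6 * K → nb x t < NP → T3 (T x) → ∃ q < 6, T (nb x t) q ∧ ¬ T x q
  lmx : ∀ {x t s q}, x < NP → t < 6 * K → s < 6 * K → q < 6 → nb x t < NP → nb (nb x t) s < NP → s ≠ t →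
    s ≠ ad K t (3 * K) → T3 (T x) → (∀ r < 6, r ≠ q → T (nb x t) r → T x r) → ¬ P (nb (nb x t) s) q
  lmxw : ∀ {x t sd q}, x < NW → t < 6 * K → sd < 2 → q < 6 → nb x t < NP → T3 (T x) →
    (∀ r < 6, r ≠ q → T (nb x t) r → T x r) → W x t sd 0 = q ∨ W x t sd 1 = q
  lmb : ∀ {x s t i j}, x < NP → s < 6 * K → t < 6 * K → i < 6 → j < 6 → nb x s < NP → nb x t < NP → t ≠ s →
    t ≠ ad K s (3 * K) → (∀ r < 6, T x r → r = i ∨ r = j) → P (nb x s) i → ¬ P (nb x t) j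
  lmbw : ∀ {x t sd i j}, x < NW → t < 6 * K → sd < 2 → i < 6 → j < 6 → nb x t < NP →
    (∀ r < 6, T (nb x t) r → r = i ∨ r = j) → P x i → W x t sd 0 = j ∨ W x t sd 1 = j
  part : ∀ {x q}, x < NP → q < 6 → T x q → X x → ∃ s < 6 * K,
    ((nb x s < NP → P (nb x s) q) ∧ ((∀ k < 4, ∀ j < 6 * K, ecell K k j s = true → ¬ V k x j q) ∨
      (∀ k < 4, ∀ j < 6 * K, ecell K k j (ad K s (3 * K)) = true → ¬ V k x j q))) ∨
      (∀ k < 4, ∀ j < 6 * K, fcell K k j s = true → ¬ V k x j q)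
  z1a : ∀ {x j}, x < NP → j < 6 * K → ∃ q < 6, V 0 x j q ∧ V 1 x (ad K j 1) q
  z1b : ∀ {x j}, x < NP → j < 6 * K → ∃ q < 6, V 3 x j q ∧ V 0 x j q
  aro : ∀ {c m}, K = 2 → c < NW → m < 6 → ∃ q < 6, AR c m q
  alo : ∀ {c m}, K = 2 → c < NW → m < 6 → ∃ q < 6, AL c m q
  ar3 : ∀ {c m q}, K = 2 → c < NW → m < 6 → q < 6 → AR c m q → V 3 c (2 * m) q
  al1 : ∀ {c m q}, K = 2 → c < NW → m < 6 → q < 6 → AL c m q → V 1 c (ad K (2 * m) 2) q
  ars : ∀ {c m q}, K = 2 → c < NW → m < 6 → q < 6 → AR c m q →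
    V 0 c (2 * m) q ∨ V 0 c (2 * m + 1) q ∨ ∃ k < 3, V (k + 1) c (2 * m + 1) q
  arz : ∀ {c m q}, K = 2 → c < NW → m < 6 → q < 6 → AR c m q → ∃ k < 3, V (k + 1) c (2 * m) q
  als : ∀ {c m q}, K = 2 → c < NW → m < 6 → q < 6 → AL c m q →
    V 0 c (2 * m) q ∨ V 0 c (2 * m + 1) q ∨ ∃ k < 3, V (k + 1) c (2 * m + 1) q
  alz : ∀ {c m q}, K = 2 → c < NW → m < 6 → q < 6 → AL c m q → ∃ k < 3, V (k + 1) c (ad K (2 * m) 2) q

variable {K NP NW : ℕ} {nb : ℕ → ℕ → ℕ}

namespace Md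

variable (M : Md K NP NW nb)

/-- the directions of `q` meet the open sector between the rays `2 m` and `2 m + 2` -/
def S60 (c m q : ℕ) : Prop := M.V 0 c (2 * m) q ∨ M.V 0 c (2 * m + 1) q ∨ ∃ k < 3, M.V (k + 1) c (2 * m + 1) q

/-- the bit `A` after the event -/
def Ap (c m q : ℕ) : Prop := M.V 0 c (2 * m) q ∨ ∃ k < 3, M.V (k + 1) c (2 * m + 1) q

/-- the bit `B` before the event -/
def Bm (c m q : ℕ) : Prop := M.V 0 c (2 * m + 1) q ∨ ∃ k < 3, M.V (k + 1) c (2 * m + 1) q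

open Classical in
/-- letters of the centres: `6` = foreign -/
noncomputable def L (c t sd io : ℕ) : ℕ :=
  if M.T c (M.W c t sd 0) ∧ M.T c (M.W c t sd 1) then M.W c t sd io else 6

end Md

/-! ### atoms -/

/-- atoms as numbers -/
def En (kd x j k q : ℕ) : ℕ :=
  Nat.add kd (Nat.mul 16 (Nat.add x (Nat.mul 4096 (Nat.add j (Nat.mul 256 (Nat.add k (Nat.mul 8 q)))))))

theorem en_eq (kd x j k q : ℕ) : En kd x j k q = kd + 16 * (x + 4096 * (j + 256 * (k + 8 * q))) := rfl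

/-- kind -/
def a0 (n : ℕ) : ℕ := n % 16
/-- point -/
def a1 (n : ℕ) : ℕ := n / 16 % 4096
/-- direction -/
def a2 (n : ℕ) : ℕ := n / 65536 % 256
/-- kind of the cell -/
def a3 (n : ℕ) : ℕ := n / 16777216 % 8
/-- colour -/
def a4 (n : ℕ) : ℕ := n / 134217728

/-- the meaning of the atoms -/
def av (M : Md K NP NW nb) (n : ℕ) : Prop :=
  if a0 n = 0 then M.V (a3 n) (a1 n) (a2 n) (a4 n) else
  if a0 n = 1 then M.PV (a3 n) (a1 n) (a2 n) (a4 n) else
  if a0 n = 2 then M.H (a1 n) (a2 n) (a4 n) else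
  if a0 n = 3 then M.PH (a1 n) (a2 n) (a4 n) else
  if a0 n = 4 then M.T (a1 n) (a4 n) else
  if a0 n = 5 then M.P (a1 n) (a4 n) else
  if a0 n = 6 then M.X (a1 n) else
  if a0 n = 7 then (∀ k < 4, ∀ j < 6 * K, ecell K k j (a2 n) = true → ¬ M.V k (a1 n) j (a4 n)) else
  if a0 n = 8 then (∀ k < 4, ∀ j < 6 * K, fcell K k j (a2 n) = true → ¬ M.V k (a1 n) j (a4 n)) else
  if a0 n = 9 then M.W (a1 n) (a2 n) (a3 n / 2) (a3 n % 2) = a4 n else
  if a0 n = 10 then M.L (a1 n) (a2 n) (a3 n / 2) (a3 n % 2) = a4 n else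
  if a0 n = 11 then M.S60 (a1 n) (a2 n) (a4 n) else
  if a0 n = 12 then M.Ap (a1 n) (a2 n) (a4 n) else
  if a0 n = 13 then M.Bm (a1 n) (a2 n) (a4 n) else
  if a0 n = 14 then M.AR (a1 n) (a2 n) (a4 n) else M.AL (a1 n) (a2 n) (a4 n)

theorem dec {kd x j k q : ℕ} (h0 : kd < 16) (h1 : x < 4096) (h2 : j < 256) (h3 : k < 8) :
    a0 (En kd x j k q) = kd ∧ a1 (En kd x j k q) = x ∧ a2 (En kd x j k q) = j ∧ a3 (En kd x j k q) = k ∧
      a4 (En kd x j k q) = q := by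
  unfold a0 a1 a2 a3 a4
  rw [en_eq]
  omega

section
variable {M : Md K NP NW nb} {x j k q : ℕ}

theorem av0 (h1 : x < 4096) (h2 : j < 256) (h3 : k < 8) : av M (En 0 x j k q) ↔ M.V k x j q := by
  obtain ⟨e0, e1, e2, e3, e4⟩ := dec (kd := 0) (q := q) (by norm_num) h1 h2 h3
  unfold av; rw [e0, e1, e2, e3, e4]; simp
theorem av1 (h1 : x < 4096) (h2 : j < 256) (h3 : k < 8) : av M (En 1 x j k q) ↔ M.PV k x j q := by
  obtain ⟨e0, e1, e2, e3, e4⟩ := dec (kd := 1) (q := q) (by norm_num) h1 h2 h3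
  unfold av; rw [e0, e1, e2, e3, e4]; simp
theorem av2 (h1 : x < 4096) (h2 : j < 256) : av M (En 2 x j 0 q) ↔ M.H x j q := by
  obtain ⟨e0, e1, e2, e3, e4⟩ := dec (kd := 2) (k := 0) (q := q) (by norm_num) h1 h2 (by norm_num)
  unfold av; rw [e0, e1, e2, e4]; simp
theorem av3 (h1 : x < 4096) (h2 : j < 256) : av M (En 3 x j 0 q) ↔ M.PH x j q := by
  obtain ⟨e0, e1, e2, e3, e4⟩ := dec (kd := 3) (k := 0) (q := q) (by norm_num) h1 h2 (by norm_num)
  unfold av; rw [e0, e1, e2, e4]; simp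
theorem av4 (h1 : x < 4096) : av M (En 4 x 0 0 q) ↔ M.T x q := by
  obtain ⟨e0, e1, e2, e3, e4⟩ := dec (kd := 4) (j := 0) (k := 0) (q := q) (by norm_num) h1 (by norm_num) (by norm_num)
  unfold av; rw [e0, e1, e4]; simp
theorem av5 (h1 : x < 4096) : av M (En 5 x 0 0 q) ↔ M.P x q := by
  obtain ⟨e0, e1, e2, e3, e4⟩ := dec (kd := 5) (j := 0) (k := 0) (q := q) (by norm_num) h1 (by norm_num) (by norm_num)
  unfold av; rw [e0, e1, e4]; simp
theorem av6 (h1 : x < 4096) : av M (En 6 x 0 0 0) ↔ M.X x := by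
  obtain ⟨e0, e1, e2, e3, e4⟩ := dec (kd := 6) (j := 0) (k := 0) (q := 0) (by norm_num) h1 (by norm_num) (by norm_num)
  unfold av; rw [e0, e1]; simp
theorem av7 (h1 : x < 4096) (h2 : j < 256) :
    av M (En 7 x j 0 q) ↔ ∀ k < 4, ∀ i < 6 * K, ecell K k i j = true → ¬ M.V k x i q := by
  obtain ⟨e0, e1, e2, e3, e4⟩ := dec (kd := 7) (k := 0) (q := q) (by norm_num) h1 h2 (by norm_num)
  unfold av; rw [e0, e1, e2, e4]; simp
theorem av8 (h1 : x < 4096) (h2 : j < 256) :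
    av M (En 8 x j 0 q) ↔ ∀ k < 4, ∀ i < 6 * K, fcell K k i j = true → ¬ M.V k x i q := by
  obtain ⟨e0, e1, e2, e3, e4⟩ := dec (kd := 8) (k := 0) (q := q) (by norm_num) h1 h2 (by norm_num)
  unfold av; rw [e0, e1, e2, e4]; simp
theorem av9 (h1 : x < 4096) (h2 : j < 256) (h3 : k < 8) :
    av M (En 9 x j k q) ↔ M.W x j (k / 2) (k % 2) = q := by
  obtain ⟨e0, e1, e2, e3, e4⟩ := dec (kd := 9) (q := q) (by norm_num) h1 h2 h3
  unfold av; rw [e0, e1, e2, e3, e4]; simp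
theorem av10 (h1 : x < 4096) (h2 : j < 256) (h3 : k < 8) :
    av M (En 10 x j k q) ↔ M.L x j (k / 2) (k % 2) = q := by
  obtain ⟨e0, e1, e2, e3, e4⟩ := dec (kd := 10) (q := q) (by norm_num) h1 h2 h3
  unfold av; rw [e0, e1, e2, e3, e4]; simp
theorem av11 (h1 : x < 4096) (h2 : j < 256) : av M (En 11 x j 0 q) ↔ M.S60 x j q := by
  obtain ⟨e0, e1, e2, e3, e4⟩ := dec (kd := 11) (k := 0) (q := q) (by norm_num) h1 h2 (by norm_num)
  unfold av; rw [e0, e1, e2, e4]; simp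
theorem av12 (h1 : x < 4096) (h2 : j < 256) : av M (En 12 x j 0 q) ↔ M.Ap x j q := by
  obtain ⟨e0, e1, e2, e3, e4⟩ := dec (kd := 12) (k := 0) (q := q) (by norm_num) h1 h2 (by norm_num)
  unfold av; rw [e0, e1, e2, e4]; simp
theorem av13 (h1 : x < 4096) (h2 : j < 256) : av M (En 13 x j 0 q) ↔ M.Bm x j q := by
  obtain ⟨e0, e1, e2, e3, e4⟩ := dec (kd := 13) (k := 0) (q := q) (by norm_num) h1 h2 (by norm_num)
  unfold av; rw [e0, e1, e2, e4]; simp
theorem av14 (h1 : x < 4096) (h2 : j < 256) : av M (En 14 x j 0 q) ↔ M.AR x j q := by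
  obtain ⟨e0, e1, e2, e3, e4⟩ := dec (kd := 14) (k := 0) (q := q) (by norm_num) h1 h2 (by norm_num)
  unfold av; rw [e0, e1, e2, e4]; simp
theorem av15 (h1 : x < 4096) (h2 : j < 256) : av M (En 15 x j 0 q) ↔ M.AL x j q := by
  obtain ⟨e0, e1, e2, e3, e4⟩ := dec (kd := 15) (k := 0) (q := q) (by norm_num) h1 h2 (by norm_num)
  unfold av; rw [e0, e1, e2, e4]; simp

end

/-! ### clauses -/

/-- positive literal -/
def ps (n : ℕ) : ℕ := Nat.mul 2 n
/-- negative literal -/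
def ng (n : ℕ) : ℕ := Nat.succ (Nat.mul 2 n)

/-- the literal `l` is true -/
def lv (M : Md K NP NW nb) (l : ℕ) : Prop := if l % 2 = 0 then av M (l / 2) else ¬ av M (l / 2)

theorem lv_ps {M : Md K NP NW nb} {n : ℕ} : lv M (ps n) ↔ av M n := by
  have h1 : ps n % 2 = 0 := by have : ps n = 2 * n := rfl
                               omega
  have h2 : ps n / 2 = n := by have : ps n = 2 * n := rfl
                               omega
  unfold lv; rw [h1, h2]; simp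

theorem lv_ng {M : Md K NP NW nb} {n : ℕ} : lv M (ng n) ↔ ¬ av M n := by
  have h1 : ng n % 2 = 1 := by have : ng n = 2 * n + 1 := rfl
                               omega
  have h2 : ng n / 2 = n := by have : ng n = 2 * n + 1 := rfl
                               omega
  unfold lv; rw [h1, h2]; simp

/-- the clause `c` holds -/
def Ho (M : Md K NP NW nb) (c : List ℕ) : Prop := ∃ l ∈ c, lv M l

theorem hn {M : Md K NP NW nb} {n : ℕ} {c : List ℕ} (h : av M n → Ho M c) : Ho M (ng n :: c) := by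
  by_cases h1 : av M n
  · obtain ⟨l, h2, h3⟩ := h h1
    exact ⟨l, List.mem_cons_of_mem _ h2, h3⟩
  · exact ⟨_, List.mem_cons_self, lv_ng.2 h1⟩

theorem hp {M : Md K NP NW nb} {n : ℕ} {c : List ℕ} (h : av M n) : Ho M (ps n :: c) :=
  ⟨_, List.mem_cons_self, lv_ps.2 h⟩

theorem hp' {M : Md K NP NW nb} {n : ℕ} {c : List ℕ} (h : ¬ av M n → Ho M c) : Ho M (ps n :: c) := by
  by_cases h1 : av M n
  · exact hp h1
  · obtain ⟨l, h2, h3⟩ := h h1
    exact ⟨l, List.mem_cons_of_mem _ h2, h3⟩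

theorem hor {M : Md K NP NW nb} {n : ℕ} {c : List ℕ} (h : ¬ av M n → Ho M c) : Ho M (ps n :: c) := hp' h

theorem ht {M : Md K NP NW nb} {l : ℕ} {c : List ℕ} (h : Ho M c) : Ho M (l :: c) := by
  obtain ⟨l', h2, h3⟩ := h
  exact ⟨l', List.mem_cons_of_mem _ h2, h3⟩

/-- trivial clause -/
def trv : List ℕ := [0, 1]

theorem ho_trv (M : Md K NP NW nb) : Ho M trv := by
  by_cases h : av M 0
  · exact ⟨0, by simp [trv], by unfold lv; simpa using h⟩
  · exact ⟨1, by simp [trv], by unfold lv; simpa using h⟩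

/-- `f (n - 1), .., f 0`, then `r` -/
def mp (f : ℕ → ℕ) (n : ℕ) (r : List ℕ) : List ℕ := @Nat.rec (fun _ => List ℕ) r (fun i ih => f i :: ih) n

theorem ho_mp {M : Md K NP NW nb} {f : ℕ → ℕ} {n : ℕ} {r : List ℕ} {i : ℕ} (hi : i < n) (h : lv M (f i)) :
    Ho M (mp f n r) := by
  induction n with
  | zero => exact absurd hi (Nat.not_lt_zero _)
  | succ n ih =>
    rcases Nat.lt_succ_iff_lt_or_eq.1 hi with h1 | h1
    · exact ht (ih h1)
    · subst h1; exact ⟨_, List.mem_cons_self, h⟩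

theorem ho_mp_r {M : Md K NP NW nb} {f : ℕ → ℕ} {n : ℕ} {r : List ℕ} (h : Ho M r) : Ho M (mp f n r) := by
  induction n with
  | zero => exact h
  | succ n ih => exact ht ih

/-- conditional clause -/
def cd (b : Bool) (c : List ℕ) : List ℕ := bif b then c else trv

theorem ho_cd {M : Md K NP NW nb} {b : Bool} {c : List ℕ} (h : b = true → Ho M c) : Ho M (cd b c) := by
  cases b
  · exact ho_trv M
  · exact h rfl

/-- fields of the codes -/
def fx (n : ℕ) : ℕ := Nat.land (Nat.shiftRight n 6) 4095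
def fa (n : ℕ) : ℕ := Nat.land (Nat.shiftRight n 18) 255
def fb (n : ℕ) : ℕ := Nat.land (Nat.shiftRight n 26) 255
def fc (n : ℕ) : ℕ := Nat.land (Nat.shiftRight n 34) 255
def fd (n : ℕ) : ℕ := Nat.land (Nat.shiftRight n 42) 255
def fe (n : ℕ) : ℕ := Nat.land (Nat.shiftRight n 50) 255

/-- strictly less -/
def lb (a b : ℕ) : Bool := Nat.ble (Nat.succ a) b

theorem lb_iff {a b : ℕ} : lb a b = true ↔ a < b := by
  unfold lb; rw [Nat.ble_eq]; exact Iff.rfl

end Vale.Agent.P032.H820.K
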